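import Vale.Agent.P269.San3.Ref
import Vale.Agent.P269.San2.Ci
import Vale.Agent.P269.Prop.Eff
import Vale.Agent.P269.Pt.Ops2

/-!
# Stable maps of genus one and degree three to a smooth plane cubic
-/

set_option linter.unusedSectionVars false

namespace Vale.Agent.P269.San3

open Set Function Topology Filter Module Cv Ch Base

variable {Λ K ν κ : Type} [Fintype Λ] [Fintype K] [Fintype ν] [Fintype κ] [IsEmpty ν] [IsEmpty κ]
  {F : Fam Empty Λ Unit (Fin 3) K} {G : (Fin 3 → ℂ) → ℂ} {g : (Fin 3 → ℂ) → Fin 3 → ℂ}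
  {m m' : AM Λ Unit (Fin 3) ν κ} {l : Λ → ℂ} {k D : ℕ}

/-- the map to the plane -/
def pm (m : AM Λ Unit (Fin 3) ν κ) (x : m.X) : V M3 := fun _ j => m.y j x

/-- A family of subvarieties of the plane. -/
structure Pl (F : Fam Empty Λ Unit (Fin 3) K) : Prop where
  w : F.w = fun _ _ => 1
  θ : F.θ = fun _ => 3

namespace Pl

variable (h : Pl F)
include h

theorem bz_w (j : Fin 3) : bz m.L (F.w j) = m.L () := by simp [bz, h.w]

theorem stable_iff : m.Stable F.θ ↔ Ge (omega m.R m.N ∅ * m.L () ^ 3) 1 :=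
  forall₃_congr fun U _ _ => by
    rw [degOn_mul, degOn_mul, AC.degOn_ω, h.θ, degOn_bz, degOn_pow,
      show m.P = ∅ by simp [AC.P]]
    simp

theorem sec_iff : m.Sec F.toWt ↔ ∀ i j, (fun x => pm m x i j) ∈ H0 m.N (m.L i) :=
  ⟨fun a _ j => h.bz_w (m := m) j ▸ a j, fun a j => (h.bz_w (m := m) j).symm ▸ a () j⟩

theorem act (t : (Empty → ℂ) × (Unit → ℂ)) (z : (Λ → ℂ) × (Fin 3 → ℂ)) :
    F.actT t z = (z.1, t.2 () • z.2) :=
  Prod.ext (funext fun a => by simp [Wt.actT, Wt.actL]) (funext fun j => by simp [Wt.actT, h.w])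

theorem cls (hG : Cu G g) (hc : ∀ x, pm m x () ∈ cn G) (hs : m.Sec F.toWt) (hb : m.Stable F.θ)
    (ht : m.Typ 1 fun _ => 3) : m.N = ∅ ∧ Em m.L (pm m) :=
  classify (h.sec_iff.1 hs) hG.cb hc (h.stable_iff.1 hb) ht.1 (ht.2 ())

theorem iso (a : m.N = ∅ ∧ Em m.L (pm m)) (b : m'.N = ∅ ∧ Em m'.L (pm m'))
    (hC : cone (pm m) ⊆ cone (pm m')) (hl : m'.l = m.l) : AM.Iso F.toWt univ m m' :=
  let ⟨e, c, hf, a1, a2, a3⟩ := a.2.exists_iso b.2 hC
  ⟨e, hf, fun i y => c y i, 1, isUnit_one, fun _ _ => by simp [a.1, b.1], isEmptyElim,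
    fun i => ⟨⟨a3 i, by simp [a.1]⟩, fun y => a2 y i, isEmptyElim⟩,
    hl.trans (F.actL_one _).symm, fun j _ x => by
      rw [h.act]
      exact congrFun (congrFun (a1 x) ()) j⟩

end Pl

/-- The member `l` of the family is the cubic `G`. -/
structure Fb (F : Fam Empty Λ Unit (Fin 3) K) (l : Λ → ℂ) (G : (Fin 3 → ℂ) → ℂ)
    (g : (Fin 3 → ℂ) → Fin 3 → ℂ) : Prop extends Pl F where
  good : F.Good
  cu : Cu G g
  hz : ∀ v, v 2 = 0 → G v = v 0 ^ 3 + v 1 ^ 3 ∧ g v 0 = 3 * v 0 ^ 2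
  mem : l ∈ F.B
  cone : ∀ y, (l, y) ∈ F.cone ↔ y ∈ cn G

namespace Fb

variable (h : Fb F l G g)
include h

theorem exists_am : ∃ m : AM Λ Unit (Fin 3) ν κ, m.l = l ∧ m.Sol F ∧ m.Stable F.θ ∧
    (m.Typ 1 fun _ => 3) ∧ {c | c () ∈ cn G} ⊆ Cv.cone (pm m) := by
  obtain ⟨X, _, _, _, R, N, A, π, p⟩ := h.cu.isNodal.exists_par
  obtain ⟨a1, a2, a3⟩ := h.cu.numbers h.hz p
  exact ⟨⟨⟨X, R, N, isEmptyElim, p.nd, injective_of_subsingleton _, isEmptyElim⟩, A, l,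
    fun j x => π x () j⟩, rfl, ⟨h.mem, h.sec_iff.2 p.sec, fun z => (h.cone _).2 (p.mem z)⟩,
    h.stable_iff.2 a1, ⟨a2, fun _ => a3⟩, fun c => (p.img c).1⟩

theorem onto {m : AM Λ Unit (Fin 3) ν κ} (b : ∀ z, pm m z () ∈ cn G) (c : Em m.L (pm m))
    {v : Fin 3 → ℂ} (hv : v ∈ cn G) : ∃ z, ∃ t : ℂ, v = t • pm m z () := by
  obtain ⟨m₀, a1, a2, a3, a4, a5⟩ := h.exists_am (ν := ν) (κ := κ)
  obtain ⟨f, t, -, d, -⟩ := c.exists_iso (h.cls h.cu (fun z => (h.cone _).1 (a1 ▸ a2.2.2 z)) a2.2.1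
    a3 a4).2 ((h.cu.cone_sub b).trans a5)
  obtain ⟨z, s, -, e⟩ := a5 (a := fun _ => v) hv
  obtain ⟨z, rfl⟩ := f.surjective z
  exact ⟨z, s () * t z (), (congrFun e ()).trans (by rw [d, mul_smul]; rfl)⟩

variable (hD : F.BigD k D) {x y : (F.sch ν κ k D 1 fun _ => 3).WF ν κ Λ}
include hD

theorem exists_sol (hk : F.Big k) : ∃ x ∈ (F.sch ν κ k D 1 fun _ => 3).solF ν κ F, x.1 = l :=
  let ⟨_, a1, a2, a3, a4, _⟩ := h.exists_am (ν := ν) (κ := κ)
  let ⟨x, b1, b2⟩ := Fam.exists_rep h.good.toInv hk hD a2 a3 a4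
  ⟨x, b1, b2.1.trans a1⟩

variable (hx : x ∈ solF _ ν κ F) (hl : x.1 = l)
include hx hl

theorem data : ∃ m, Rep ℓs univ x m ∧ (∀ z, pm m z () ∈ cn G) ∧ m.N = ∅ ∧ Em m.L (pm m) := by
  obtain ⟨m, r⟩ := (Fam.chart_lat hD).exists_rep_sol hx
  have a := (r.mem_solF hx.1.2.1 h.good.toInv (Fam.chart_lat hD).wd).1 hx
  have b : ∀ z, pm m z () ∈ cn G := fun z => (h.cone _).1 (hl ▸ r.1 ▸ a.2.2 z)
  exact ⟨m, r, b, h.cls h.cu b a.2.1 (Fam.rep_stable hD r hx.1.2.1) (Fam.rep_typ r hx.1.2.1)⟩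

theorem orb (hy : y ∈ solF _ ν κ F) (hl' : y.1 = l) : ∃ a, IsUnit a ∧ actF F.toWt a y = x := by
  obtain ⟨m, r, b, c⟩ := h.data hD hx hl
  obtain ⟨m', r', b', c'⟩ := h.data hD hy hl'
  obtain ⟨m₀, a1, a2, a3, a4, a5⟩ := h.exists_am (ν := ν) (κ := κ)
  have d := h.cls h.cu (fun z => (h.cone _).1 (a1 ▸ a2.2.2 z)) a2.2.1 a3 a4
  exact ((r'.iso_iff hy.1.2.1 (Fam.chart_lat hD) (Fam.chart_cuts hD).ne Fam.chart_tight r
    hx.1.2.1).1 ((h.iso c' d ((h.cu.cone_sub b').trans a5) (a1.trans (hl'.symm.trans r'.1))).trans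
      (h.iso c d ((h.cu.cone_sub b).trans a5) (a1.trans (hl.symm.trans r.1))).symm)).imp
    fun _ e => ⟨e.1, e.2.symm⟩

theorem free (a) (ha : IsUnit a) (e : actF F.toWt a x = x) : a = 1 := by
  obtain ⟨m, r, -, -, c⟩ := h.data hD hx hl
  obtain ⟨B, π, u, s, r⟩ := r.exists_data hx.1.2.1
  have r' := r.actF (W := F.toWt) ha
  rw [e] at r'
  obtain ⟨f, t, b1, -, b2⟩ := r.isoD (Fam.chart_lat hD).wd r'
  have b3 : ∀ z, z = f z := fun z => by
    simpa using c.par.inj z (f z) _ (funext₂ fun _ j => by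
      have := b2.y j trivial z
      rw [h.act] at this
      exact (one_mul _).symm.trans ((congrArg (· * _) (Fintype.prod_empty _).symm).trans this))
  have b4 := eq_one (s := (isUnit_dupF ha).unit) hx.2 (h.good.free' _ _ _ hD hx.1.1)
    (M_eq_of (fun _ => rfl) hx.1.2.1) ((congrArg _ ((congrArg (scl · x.2) (funext fun _ =>
      Fintype.prod_empty _)).trans (scl_one _))).symm.trans (congrArg Prod.snd e)) fun v hv => by
      obtain ⟨z, w, -, rfl⟩ := r.mem_crv.1 hv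
      refine ⟨t z none, (map_smul (a.2.1 none) _ _).trans ?_⟩
      have := congrFun (b1 z) none
      rw [← b3] at this
      exact (congrArg (w none • ·) this).trans (smul_comm (w none) (t z none) (π z none))
  have b5 : dup a.2 = 1 := congrArg Units.val b4
  exact Prod.ext (Subsingleton.elim _ _) (Prod.ext (congrArg (·.1) b5)
    (Prod.ext (congrArg (·.2.1) b5) (Subsingleton.elim _ _)))

end Fb

end Vale.Agent.P269.San3
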