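import Vale.Agent.P269.San3.Tr
import Vale.Agent.P269.San2.Fer
import Vale.Agent.P269.Coh.TrB

/-!
# The virtual number of stable maps of genus one and degree three to a general plane cubic
-/

set_option linter.unusedSectionVars false
set_option linter.style.haveILetI false

namespace Vale.Agent.P269.San3

open P291Z Set Function Topology Filter Module Cv Ch Base P1 Th Holo San2 Mono Mono.CI

section gen

variable {S Λ R J K ι ν κ : Type} [Fintype S] [Fintype Λ] [Fintype R] [Fintype J] [Fintype K]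
  [Fintype ι] [DecidableEq ι] [Fintype ν] [Fintype κ] [DecidableEq R] {ch : Ch ι J}
  {F : Fam S Λ R J K} {e : K → ι → ℕ} {K₀ : Set K} {ℓ : R → ι → ℤ} {b : ℕ} {x : ch.WF ν κ Λ}
  {U : Set (ch.WF ν κ Λ)}

theorem pack (h : ch.Ok F e K₀ ℓ b U) (hE : F.PolE) (hA : F.Abs) (hx : x ∈ ch.solF ν κ F)
    (hv : ch.vdim ν κ F ℓ K₀ b 0 = b) : ∃ O n, ∃ g : (ch.kd ν κ F e).Gd (actF F.toWt)
      (ch.solF ν κ F ∩ ch.cyc κ F (0 : ν → J → ℕ)) O n (ch.rk F ℓ K₀).toNat,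
      KD.Mf (ch.AF ν κ S) O (b + (ch.rk F ℓ K₀).toNat) ∧
      (∃ V, IsOpen V ∧ O = ch.cyc κ F (0 : ν → J → ℕ) ∩ V) ∧ virF F e (ch.cyc κ F 0) =
        (ch.kd ν κ F e).vr _ _ O (g.fu (b + (ch.rk F ℓ K₀).toNat)) := by
  classical
  have v : Vm F e (0 : ν → J → ℕ) U _ := h.vd_sh hE (sh_abs hA) 0
  have em := main_eq (ν := ν) (κ := κ) hA h.inv h.cuts
  obtain ⟨n, g⟩ := v.gd h.toStd
  have b1 := (h.num.mfd_main h.sm (h.lat.gr h.inv (sh_abs hA) 0)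
    (em.ge (hA.sol_subset h.inv hx))).1
  have b2 := vdim_eq (F := F) (ℓ := ℓ) (K₀ := K₀) (b := b) h.cuts.ne hx.1.2.1 0
  have b3 := h.toStd.rk_nonneg hx
  have b6 : (ch.dimM ν κ F b (Fintype.card Empty)).toNat - finrank ℂ (ch.AF ν κ S) =
      b + (ch.rk F ℓ K₀).toNat := by
    rw [Fintype.card_empty] at b1 ⊢
    omega
  have m := v.cyc.mfd
  rw [em, b6] at m
  exact ⟨_, n, g, fun y hy => ⟨hy, m ⟨y, hy⟩⟩, v.dom.opn, (v.virF_vr h.toStd).trans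
    (congrArg (fun d => (ch.kd ν κ F e).vr _ _ _ (g.fu d)) b6)⟩

theorem rk_eq [IsEmpty S] [IsEmpty ν] [IsEmpty κ] (hc : ch.Cuts) (hx : x.2 ∈ ch.base _)
    (hm : F.mov = univ) (hg : ch.g = 1) (hv : ch.vdim ν κ F ℓ K₀ b 0 = b) :
    (ch.rk F ℓ K₀).toNat = finrank ℂ (Fl ch) := by
  have a : ∀ j, ch.eu (fun i => ch.a (some j) i) = ch.h (some j) := fun j =>
    (h_eq₁ hx (hc.ne _)).symm
  have a' : ∀ j, (fun i => (ch.a (some j) i - ch.b j i : ℤ)) = ch.wd j := fun _ => rfl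
  simp only [vdim, hg, hm, mem_univ, Finset.filter_true, Fintype.card_eq_zero] at hv
  rw [← Nat.cast_inj (R := ℤ), show ch.rk F ℓ K₀ = finrank ℂ (Fl ch) from ?_, Int.toNat_natCast]
  simp only [rk, finrank_Fl', a, a', Finset.sum_sub_distrib, hm, mem_univ, Finset.filter_true]
  push_cast at hv ⊢
  linear_combination -hv

end gen

variable {Λ K ν κ : Type} [Fintype Λ] [Fintype K] [Fintype ν] [Fintype κ] [IsEmpty ν] [IsEmpty κ]
  {k D : ℕ} {ch : Ch (Option Unit) (Fin 3)} {x : ch.WF ν κ Λ} {U O V : Set (ch.WF ν κ Λ)}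

namespace Fb

variable {F : Fam Empty Λ Unit (Fin 3) K} {G : (Fin 3 → ℂ) → ℂ} {g : (Fin 3 → ℂ) → Fin 3 → ℂ}
  {l : Λ → ℂ} {e : K → Option Unit → ℕ} {K₀ : Set K} (h : Fb F l G g) (hD : F.BigD k D)
  (hc : F.sch ν κ k D 1 (fun _ => 3) = ch)
include h hD hc

theorem setup {b : ℕ} (hk : F.Big k) (hR : F.Reg K₀) (hB : F.Sm b) :
    (∃ U : Set (ch.WF ν κ Λ), ch.Ok F (F.tdeg ch) K₀ ℓs b U) ∧ ∃ x ∈ ch.solF ν κ F, x.1 = l := by
  subst hc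
  exact ⟨h.good.ok' ν κ hR hB hk hD _ _, h.exists_sol hD hk⟩

theorem ev_virF (hB : F.B = {l}) (c : ch.Ok F e K₀ ℓs 0 U) (hE : F.PolE) (hA : F.Abs)
    (hv : ch.vdim ν κ F ℓs K₀ 0 0 = (0 : ℕ)) (hx : x ∈ ch.solF ν κ F) :
    MfdAt (ch.solF ν κ F) (finrank ℂ (ch.AF ν κ Empty)) x ∧
      ((∀ O ⊆ ch.baseF ν κ F.B, ∀ hO : x ∈ O,
        finrank ℂ (krn (ch.kd ν κ F e) O ⟨x, hO⟩) ≤ finrank ℂ (ch.AF ν κ Empty)) →
      ev (virF F e (ch.cyc κ F (0 : ν → Fin 3 → ℕ))) 1 = 1) := by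
  subst hc
  obtain ⟨O, n, p, a1, ⟨V, -, a2⟩, a3⟩ := pack c hE hA hx hv
  have b0 := inter_eq_left.2 (hA.sol_subset (ν := ν) (κ := κ) c.inv (ch := F.sch ν κ k D 1 fun _ => 3))
  have b1 := fun y hy => h.orb hD hx (hB.le hx.1.1) (y := y) (b0.le hy) (hB.le (b0.le hy).1.1)
  have b2 := h.free hD hx (hB.le hx.1.1)
  refine ⟨b0 ▸ mf_one p (b0.ge hx) b1 b2 x (b0.ge hx), fun H => ?_⟩
  rw [zero_add] at a1 a3
  rw [a3]
  exact ev_one p (b0.ge hx) b1 b2 a1 (fun y hy => sep_kd c.num hy.1.1.2.1 fun z hz =>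
    (a2.le hz).1.2.2.1) (H _ (fun z hz => (a2.le hz).1.2) _)

theorem krn_bd (hG : ∀ v, G v = ∑ j, v j ^ 3) (c : ch.Ok F e K₀ ℓs 1 U) (hA : F.Abs)
    (hm : F.mov = univ) (hv : ch.vdim ν κ F ℓs K₀ 1 0 = (1 : ℕ)) (hx : x ∈ ch.solF ν κ F)
    (hl : x.1 = l) (q : K) {w : Λ → ℂ} (hw : w ≠ 0) (he : ∀ (τ : ℂ) y η, deriv (fun ε : ℂ =>
      F.eqn (l + ε • τ • w, y + ε • η) q) 0 = ∑ j, 3 * y j ^ 2 * η j + τ * ∏ j, y j)
    (hB : ∀ τ : ℂ, ∀ᶠ ε : ℂ in 𝓝 0, l + ε • τ • w ∈ F.B) (hV : IsOpen V)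
    (a2 : O = ch.cyc κ F (0 : ν → Fin 3 → ℕ) ∩ V) (fin : FiniteDimensional ℂ (ch.polF F e)) {a : ℕ}
    (hO : MfdAt O (a + (1 + (ch.rk F ℓs K₀).toNat)) x) :
    finrank ℂ (krn (ch.kd ν κ F e) O ⟨x, hO.1⟩) ≤ a + 1 := by
  subst hc
  let T := (LinearMap.toSpanSingleton ℂ _ w).prodMap
    (fl (F.sch ν κ k D 1 fun _ => 3) (Mk ν κ)).toLinearMap
  have hT : Injective T := fun a b e => Prod.ext (smul_left_injective ℂ hw (congrArg Prod.fst e))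
    (fl_injective (congrArg Prod.snd e))
  have mo : ∀ z, ∀ᶠ ε : ℂ in 𝓝 0, x + ε • T z ∈ O := fun z => by
    have t : Tendsto (fun ε : ℂ => x + ε • T z) (𝓝 0) (𝓝 x) :=
      Continuous.tendsto' (by fun_prop) _ _ (by simp)
    filter_upwards [t.eventually (hV.mem_nhds (a2.le hO.1).2), hB z.1] with ε b1 b2
    refine a2.ge ⟨(hA.mem_cyc c.inv).2 ⟨⟨(hl ▸ b2 :), ?_, isEmptyElim⟩,
      fun j hj => (hj (hm ▸ trivial)).elim⟩, b1⟩
    exact mem_of_eq_of_mem (y := P1.setX x.2 (x + ε • T z).2.X) (W.ext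
      (fun l => ContinuousLinearMap.ext fun μ =>
        (congrArg (x.2.Q l μ + ·) (smul_zero ε)).trans (add_zero _)) isEmptyElim
      (ContinuousLinearMap.ext fun μ => (congrArg (x.2.Ξ μ + ·) (smul_zero ε)).trans (add_zero _))
      fun _ => rfl) hx.1.2.1
  have k1 := finrank_krn (D := kd ν κ _ F e) hO (E := T.range)
    (N := ℂ ∙ (0, fl _ _ x.2.X)) (by rintro _ ⟨z, rfl⟩; exact mo z) (by
      rintro _ ⟨z, rfl⟩ H
      exact Submodule.mem_span_singleton.2 (h.ker hG hD hx hl c.fits q (he z.1) (fderiv_zero c.fits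
        c.num fin (fun z hz => (a2.le hz).1.2.2.1) hO.1 hx (fun _ => rfl) (mo z) H)))
  have k2 := finrank_span_le_card (R := ℂ) ({(0, fl _ _ x.2.X)} : Set (WF _ ν κ Λ))
  rw [LinearMap.finrank_range_of_inj hT, finrank_prod, finrank_self,
    ← rk_eq c.cuts hx.1.2.1 hm rfl hv] at k1
  rw [toFinset_singleton, Finset.card_singleton] at k2
  omega

end Fb

variable [Unique K] {S : CI (Λ → ℂ) (Fin 3) K} {u u₀ v : Λ → ℂ} {B : Set (Λ → ℂ)}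

theorem uf_vdim (hd : S.d = fun _ => 3) (hc : (S.uf B).sch ν κ k D 1 (fun _ => 3) = ch) (b : ℕ) :
    ch.vdim ν κ (S.uf B) ℓs univ b 0 = b := by
  rw [← hc, Fam.chart_vdim]
  simp [Fam.vdim, uw, hd]

open MvPolynomial in
theorem smCI_of (hu : u ∈ S.U) (h : ∀ q, S.F u q ≠ 0) : SmCI (S.F u) S.d :=
  ⟨S.hom u, S.pos, h, fun x hx => (li_iff_surj _).2 fun c =>
    let ⟨v, hv⟩ := not_not.1 (fun e => hu x ⟨hx.1, funext hx.2, e⟩) c
    ⟨v, fun q => (fderiv_ev x v q).symm.trans (congrFun hv q)⟩⟩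

variable (hd : S.d = fun _ => 3) (h₀ : S.F u₀ = fer (Fin 3) K)
  (h₁ : S.F v = fun _ => ∏ j, MvPolynomial.X j)
include h₀ h₁

theorem F_line (s : ℂ) (q : K) : S.F (u₀ + s • v) q =
    ∑ j, MvPolynomial.X j ^ 3 + s • ∏ j, MvPolynomial.X j := by
  simp [h₀, h₁, fer]

theorem ev_line (s : ℂ) (y : Fin 3 → ℂ) (q : K) :
    S.ev (u₀ + s • v) y q = ∑ j, y j ^ 3 + s * ∏ j, y j := by
  simp [CI.ev, h₀, h₁, fer]

theorem smCI_line {s : ℂ} (hu : u₀ + s • v ∈ S.U) : SmCI (S.F (u₀ + s • v)) S.d :=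
  smCI_of hu fun q e => by
    simpa [CI.ev, e, Fin.sum_univ_three, Fin.prod_univ_three] using ev_line h₀ h₁ s ![1, 0, 0] q

theorem der_line (τ : ℂ) (y η : Fin 3 → ℂ) (q : K) :
    deriv (fun ε : ℂ => (S.uf B).eqn (u₀ + ε • τ • v, y + ε • η) q) 0 =
      ∑ j, 3 * y j ^ 2 * η j + τ * ∏ j, y j := by
  have a : ∀ j, HasDerivAt (fun ε : ℂ => y j + ε * η j) (η j) 0 := fun j => by
    simpa using ((hasDerivAt_id' (0 : ℂ)).mul_const (η j)).const_add (y j)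
  simp only [uf_eqn, smul_smul, ev_line h₀ h₁, Fin.sum_univ_three, Fin.prod_univ_three,
    Pi.add_apply, Pi.smul_apply, smul_eq_mul]
  refine (((((a 0).fun_pow 3).fun_add ((a 1).fun_pow 3)).fun_add ((a 2).fun_pow 3)).fun_add
    (((hasDerivAt_id' (0 : ℂ)).mul_const τ).fun_mul
      (((a 0).fun_mul (a 1)).fun_mul (a 2)))).deriv.trans ?_
  simp

include hd

open MvPolynomial in
theorem fb_line {s : ℂ} (hu : u₀ + s • v ∈ S.U) (hB : u₀ + s • v ∈ B) (lc : IsLocallyClosed B) :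
    Fb (S.uf B) (u₀ + s • v) (fun y => eval y (S.F (u₀ + s • v) default))
      fun y j => eval y (pderiv j (S.F (u₀ + s • v) default)) where
  w := rfl
  θ := rfl
  good := uf_good lc
  cu := cu_eval (by simpa [hd] using S.hom (u₀ + s • v) default) fun y a b =>
    linearIndependent_unique_iff.1
      ((smCI_line h₀ h₁ hu).li y ⟨a, fun q => Unique.eq_default q ▸ b⟩)
  hz y a := by
    simp [F_line h₀ h₁, Fin.sum_univ_three, Fin.prod_univ_three, a, pderiv_X]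
  mem := hB
  cone y := mem_uf.trans ⟨fun a => ⟨a.2.1, congrFun a.2.2 default⟩,
    fun a => ⟨hB, a.1, funext fun q => Unique.eq_default q ▸ a.2⟩⟩

omit hd h₀ in
theorem exists_base : ∃ ℓ : (Λ → ℂ) →L[ℂ] ℂ, ℓ v = 1 ∧
    IsLocallyClosed (S.U ∩ range fun s : ℂ => u₀ + s • v) ∧
      ∀ l ∈ S.U ∩ range fun s : ℂ => u₀ + s • v,
        MfdAt (S.U ∩ range fun s : ℂ => u₀ + s • v) 1 l := by
  obtain ⟨ℓ, hℓ⟩ := SeparatingDual.exists_eq_one (R := ℂ) (x := v) fun e => by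
    simpa [e] using congrArg (MvPolynomial.eval 1) (congrFun h₁ default)
  let γ : ℂ → Λ → ℂ := fun s => u₀ + s • v
  have f1 : ∀ s, ℓ (γ s - u₀) = s := fun s => by simp [γ, hℓ]
  refine ⟨ℓ, hℓ, S.isOpen_U'.isLocallyClosed.inter (by
    rw [show range γ = {l | l = γ (ℓ (l - u₀))} from
      Set.ext fun l => ⟨fun ⟨s, a⟩ => by rw [← a, mem_ofPred_eq, f1], fun a => ⟨_, a.symm⟩⟩]
    exact (isClosed_eq continuous_id (by fun_prop)).isLocallyClosed), ?_⟩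
  rintro _ ⟨a, s, rfl⟩
  have := (MfdAt.univ s).iso (S' := range γ) (F := γ) (G := fun l => ℓ (l - u₀))
    (analyticAt_const.add (analyticAt_id.smul analyticAt_const))
    ((ℓ.analyticAt _).comp (analyticAt_id.sub analyticAt_const))
    (.of_forall fun s _ => ⟨⟨s, rfl⟩, f1 s⟩)
    (.of_forall fun _ ⟨s, a⟩ => ⟨trivial, by rw [← a, f1]⟩)
  rw [finrank_self] at this
  exact this.congr (mem_of_superset (S.isOpen_U'.mem_nhds a) fun _ k => (and_iff_right k).symm)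

variable (hk : 30 ≤ k) (hD : (S.uf ∅).BigD k D)
  (hc : ∀ B, (S.uf B).sch ν κ k D 1 (fun _ => 3) = ch)
include hk hD hc

theorem ev_line_pt {s : ℂ} (hs : u₀ + s • v ∈ S.U) (hx : x ∈ ch.solF ν κ (S.uf B))
    (hl : x.1 = u₀ + s • v) :
    MfdAt {y | y ∈ ch.solF ν κ (S.uf univ) ∧ y.1 = x.1} (finrank ℂ (ch.AF ν κ Empty)) x ∧
      ((∀ O ⊆ ch.baseF ν κ {x.1}, ∀ hO : x ∈ O, finrank ℂ (krn (ch.kd ν κ (S.uf B)
        ((S.uf B).tdeg ch)) O ⟨x, hO⟩) ≤ finrank ℂ (ch.AF ν κ Empty)) →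
      ev (virF (S.uf {u₀ + s • v}) ((S.uf {u₀ + s • v}).tdeg ch)
        (ch.cyc κ (S.uf {u₀ + s • v}) (0 : ν → Fin 3 → ℕ))) 1 = 1) := by
  have fb := fb_line (B := {u₀ + s • v}) hd h₀ h₁ hs rfl isClosed_singleton.isLocallyClosed
  obtain ⟨U, c⟩ := (fb.setup hD (hc _) (uf_big hk) (uf_reg (singleton_subset_iff.2 hs))
    (sm_zero rfl)).1
  have := fb.ev_virF hD (hc _) rfl c (nice_pt hs).pol (And.intro (by simp) rfl)
    (uf_vdim hd (hc _) 0) (x := x) ⟨⟨hl, hx.1.2⟩, hx.2⟩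
  rw [hl]
  exact ⟨this.1.congr (.of_forall fun y => ⟨fun a => ⟨⟨⟨trivial, a.1.2⟩, a.2⟩, a.1.1⟩,
    fun a => ⟨⟨a.2, a.1.1.2⟩, a.1.2⟩⟩), this.2⟩

theorem exists_ev : ∃ u, SmCI (S.F u) S.d ∧
    ev (virF (S.uf {u}) ((S.uf {u}).tdeg ch) (ch.cyc κ (S.uf {u}) (0 : ν → Fin 3 → ℕ))) 1 = 1 := by
  obtain ⟨ℓ, hℓ, lc, hm⟩ := exists_base (u₀ := u₀) h₁
  have γ0 : u₀ + (0 : ℂ) • v = u₀ := by simp
  have u0 : u₀ + (0 : ℂ) • v ∈ S.U := γ0.symm ▸ mem_U (h₀ ▸ hd ▸ smCI_fer)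
  have fb := fb_line hd h₀ h₁ u0 (mem_inter u0 (mem_range_self (f := fun s : ℂ => u₀ + s • v) 0)) lc
  obtain ⟨⟨U, c⟩, x, hx, hl⟩ := fb.setup hD (hc _) (uf_big hk) (uf_reg inter_subset_left)
    fun l => (hm _ l.2).isMfd l.2
  have hA : (S.uf (S.U ∩ range fun s : ℂ => u₀ + s • v)).Abs := ⟨by simp, rfl⟩
  obtain ⟨O, n, p, a1, ⟨V, hV, a2⟩, -⟩ := pack c (uf_nice inter_subset_left lc hm).pol hA hx
    (uf_vdim hd (hc _) 1)
  have hz := hA.sol_subset c.inv (ch := ch) (ν := ν) (κ := κ)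
  have k1 := fb.krn_bd hD (hc _) (fun y => (ev_line h₀ h₁ 0 y default).trans (by simp)) c hA rfl
    (uf_vdim hd (hc _) 1) hx hl default (w := v) (fun e => by simp [e] at hℓ)
    (fun τ y η => γ0.symm ▸ der_line h₀ h₁ τ y η default) (fun τ =>
      (((by fun_prop : Continuous fun ε : ℂ => u₀ + (0 : ℂ) • v + ε • τ • v).tendsto' 0 _
        (by simp)).eventually (S.isOpen_U'.mem_nhds u0)).mono fun ε b =>
          ⟨b, ε * τ, by simp [mul_smul]⟩) hV a2 p.ok.fin (a1 x (p.dom.sub ⟨hx, hz hx⟩))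
  obtain ⟨y, hy, k3⟩ := exists_near p ⟨hx, hz hx⟩ ((Nat.add_assoc _ _ _).symm ▸ a1 x
    (p.dom.sub ⟨hx, hz hx⟩)) (sep_kd c.num hx.1.2.1 fun z hz => (a2.le hz).1.2.2.1) k1
    (ℓ ∘L ContinuousLinearMap.fst ℂ _ _) ((ev_line_pt hd h₀ h₁ hk hD hc u0 hx hl).1.congr
      (.of_forall fun z => ⟨fun a =>
        have b : z ∈ solF _ ν κ _ := ⟨⟨mem_of_eq_of_mem a.2 hx.1.1, a.1.1.2⟩, a.1.2⟩
        ⟨⟨b, hz b⟩, congrArg ℓ a.2⟩, fun ⟨⟨a, _⟩, b⟩ => ⟨⟨⟨trivial, a.1.2⟩, a.2⟩, by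
          obtain ⟨s, d⟩ := a.1.1.2
          have f := (congrArg ℓ d).trans (b.trans (congrArg ℓ hl))
          rw [hl, ← d, show s = 0 by simpa [hℓ] using f]⟩⟩))
  obtain ⟨d1, s, d2⟩ := hy.1.1.1
  have d3 : u₀ + s • v ∈ S.U := mem_of_eq_of_mem d2 d1
  refine ⟨_, smCI_line h₀ h₁ d3, (ev_line_pt hd h₀ h₁ hk hD hc d3 hy.1 d2.symm).2 fun O' b1 b2 =>
    (Submodule.finrank_mono (le_inf (krn_le (mem_nhdsWithin.2 ⟨V, hV, (a2.le (p.dom.sub hy)).2,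
      fun z b => a2.ge ⟨(hA.mem_cyc c.inv).2 ⟨⟨mem_of_eq_of_mem (b1 b.2).1 hy.1.1.1, (b1 b.2).2⟩,
        fun j hj => (hj trivial).elim⟩, b.1⟩⟩)) fun w hw => ?_)).trans k3⟩
  let P := ContinuousLinearMap.inl ℂ (Λ → ℂ) (ch.W (Mk ν κ)) ∘L .fst ℂ _ (ch.W (Mk ν κ))
  have := (mem_krn.1 hw).1 (fun z => P z - P y) ((P.analyticAt _).sub analyticAt_const)
    (.of_forall fun z => sub_eq_zero.2 (Prod.ext (b1 z.2).1 rfl))
  rw [(P.hasFDerivAt.sub_const _).fderiv] at this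
  exact (congrArg (fun z => ℓ z.1) this).trans (map_zero ℓ)

end Vale.Agent.P269.San3
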