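import Vale.Agent.P269.San3.Cnt
import Vale.Agent.P269.San2.Cub
import Vale.Agent.P269.Bas.FibV

/-!
# The genus one invariant of the fundamental class of a smooth plane cubic
-/

set_option linter.style.haveILetI false

namespace Vale.Agent.P269

open P291Z Set Function Filter MvPolynomial San2 San3 Tq Mono Mono.CI Br.HgB

theorem San3.intB_PJ : (PJ (Fin 3)).intB univ ((PJ (Fin 3)).rsB subset_rfl 1) = 1 := by
  haveI : FP (PJ (Fin 3)).actL univ := sm_PJ.good.fpB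
  haveI : CompactSpace ((PJ (Fin 3)).Bs univ) := Quot.compactSpace
  have h : Dim (PJ (Fin 3)).actL univ 0 := Fam.Sm.dim (F := PJ (Fin 3)) (Th.sm_zero (l := 0)
    (eq_singleton_iff_unique_mem.2 ⟨trivial, fun _ _ => Subsingleton.elim _ _⟩))
  have := (inferInstance : FP (PJ (Fin 3)).actL univ).lc
  haveI : Subsingleton ((PJ (Fin 3)).Bs univ) := inferInstanceAs (Subsingleton (Quot _))
  obtain ⟨φ, a, -⟩ := h.holOrb.slice (Holo.Sp.of _ 0 trivial)
  rw [map_one, Wt.intB_eq, ← hcls_one, Loc.intg_hcls _ cocycle_one, ← one_mul (P291Z.ev _ _)]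
  exact (h.isFund.val a (FP.free _)).2 1 1 cocycle_one (fun _ _ => Subsingleton.elim _ _)
    (by rw [map_one, ← tau_zero]; exact Orb.locCo_tau)

theorem San3.cor_one {I J K : Type} [Fintype I] [Fintype J] [Fintype K]
    {F : Fam Empty I Unit J K} {k D : ℕ} (o : F.One k) (c : F.Cp) (hD : F.BigD k D) (d : Unit → ℤ)
    (f : Fin 0 → ℕ × H (F.X F.cone)) : F.cor k F.ex0 0 F.cone F.cone d 0 (List.ofFn f) [] [] =
      P291Z.ev (Ch.virF F (F.tdeg (F.sch (Fin 0 ⊕ Fin 0) (Fin 0) k D 1 d))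
        ((F.sch (Fin 0 ⊕ Fin 0) (Fin 0) k D 1 d).cyc (Fin 0) F (0 : Fin 0 ⊕ Fin 0 → J → ℕ))) 1 := by
  haveI := o.compactSpace (ν := Fin 0 ⊕ Fin 0) (κ := Fin 0) (g := 1) (d := d) (u := 0) hD
  have z := o.gz' (Fin 0 ⊕ Fin 0) (Fin 0) hD 1 d 0
  refine (F.cor_ofFnP k (fun _ _ _ => True) 1 _ 0 _).trans ((o.nice.inv_eq
    (u := (0 : Fin 0 ⊕ Fin 0 → ℕ)) (g := 1) c o.big hD (fun _ _ _ => id)
    (by rw [Fam.sel_true hD]; exact isClopen_univ) (by simp [Wt.fsF, Fac.Ok]) (fun q => q.elim0)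
    hD).trans ((Fam.intg_true hD z _ (z.at_fsF _ _)).trans ?_))
  rw [z.prod_fsF, map_one, Ch.insC, List.ofFn_zero, List.prod_nil, mul_one, OneMemClass.coe_one,
    ← hcls_one, Loc.intg_hcls _ cocycle_one]
  rfl

variable {K : Type} [Fintype K] [Unique K] {F : K → MvPolynomial (Fin 3) ℂ} {k : ℕ}

theorem SmCI.co_ell (hK : St.Kit) (h : SmCI F fun _ => 3) (hk : 30 ≤ k) :
    TrC.co F (fun _ => 3) k (fun _ => 3) 0 [] [] = 1 := by
  obtain ⟨n, S, hd⟩ := exists_fin (Fin 3) h.pos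
  obtain ⟨u₀, h₀⟩ := S.surj (fer (Fin 3) K) (hd ▸ smCI_fer.hom)
  obtain ⟨v, h₁⟩ := S.surj (fun _ => ∏ j, X j) fun q => by
    simpa [hd] using IsHomogeneous.prod Finset.univ (fun j : Fin 3 => (X j : MvPolynomial _ ℂ))
      (fun _ => 1) fun j _ => isHomogeneous_X ℂ j
  obtain ⟨D, hD⟩ := ((S.uf ∅).eventually_bigD k).exists
  obtain ⟨u, a, b⟩ := exists_ev (ν := Fin 0 ⊕ Fin 0) (κ := Fin 0) hd h₀ h₁ hk hD
    (ch := (S.uf ∅).sch _ _ k D 1 fun _ => 3) fun _ => rfl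
  have o : (S.uf {u}).One k := ⟨nice_pt (mem_U a), ⟨by simp, rfl⟩, ⟨u, rfl⟩, uf_big hk⟩
  obtain ⟨g, -, -, -, -, e⟩ := TrC.exists_same hK St.dfm (hd ▸ a) h
  exact (e k hk _ 0 [] []).trans (hd ▸ (cor_pc a hK hk (fun _ => 3) 0 [] Fin.elim0 Fin.elim0).trans
    ((congrArg₂ (· * ·) intB_PJ ((cor_one o cp_pt (D := D) hD _ _).trans b)).trans (one_mul 1)))

theorem SmCI.cor_ell (hK : St.Kit) (h : SmCI F fun _ => 3) (hk : 30 ≤ k)
    (hc : ConnectedSpace ((ciF F fun _ => 3).X (ciF F fun _ => 3).cone)) :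
    (ciF F fun _ => 3).cor k ((ciF F fun _ => 3).exK (ciF F fun _ => 3).cone
      (Tq.fnd (ciF F fun _ => 3).actT (ciF F fun _ => 3).cone)) 0
      (ciF F fun _ => 3).cone (ciF F fun _ => 3).cone (fun _ => 3) 0 [] [] [] = 1 := by
  have : IsEmpty (Fin ([] : List (ℕ × H ((ciF F fun _ => 3).X (ciF F fun _ => 3).cone))).length) :=
    Fin.isEmpty'
  haveI := h.good.fp
  have p : Pl (ciF F fun _ => 3) := ⟨rfl, rfl⟩
  have cu := cu_eval (h.hom default) fun y a b =>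
    linearIndependent_unique_iff.1 (h.li y ⟨a, fun q => Unique.eq_default q ▸ b⟩)
  have t : Br.Tr (fun (t : Unit → ℂ) (c : V M3) => t • c) (ciF F fun _ => 3).actT
      (ContinuousLinearEquiv.uniqueProd ℂ _ (Empty → ℂ)).symm
      ((ContinuousLinearEquiv.piUnique ℂ fun i => Fin (M3 i) → ℂ).trans
        (ContinuousLinearEquiv.uniqueProd ℂ _ (Empty → ℂ)).symm) :=
    ⟨Prod.ext (Subsingleton.elim _ _) rfl, fun _ _ => Prod.ext (Subsingleton.elim _ _) rfl,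
      fun _ _ => by rw [p.act]; rfl⟩
  have e : ∀ z, z ∈ (ciF F fun _ => 3).cone ↔ z.2 ∈ cn fun y => eval y (F default) := fun z =>
    mem_ciF.trans ⟨fun a => ⟨a.1, a.2 _⟩, fun a => ⟨a.1, fun q => Unique.eq_default q ▸ a.2⟩⟩
  obtain ⟨Φ, hΦ, hf⟩ : ∃ Φ : Quo (fun (t : Unit → ℂ) (c : V M3) => t • c)
      {c | c () ∈ cn fun y => eval y (F default)} ≃ₜ
        Quo (ciF F fun _ => 3).actT (ciF F fun _ => 3).cone,
      (∀ x, Φ (Quo.mk _ x) = Quo.mk _ ⟨(0, x.1 ()), (e _).2 x.2⟩) ∧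
        ∀ β, IsFund _ _ β → IsFund _ _ (push Φ β) := by
    obtain ⟨Φ, hΦ⟩ := t.exists_quo (S := {c | c () ∈ cn fun y => eval y (F default)})
      (S' := (ciF F fun _ => 3).cone) fun c => (e ((ContinuousLinearEquiv.uniqueProd ℂ _
        (Empty → ℂ)).symm (c ()))).symm
    exact ⟨Φ, fun x => (hΦ x).trans (congrArg _ (Subtype.ext (Prod.ext (Subsingleton.elim _ _) rfl))),
      fun β => t.isFund (fun c => (e ((ContinuousLinearEquiv.uniqueProd ℂ _
        (Empty → ℂ)).symm (c ()))).symm) hΦ⟩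
  haveI : ConnectedSpace (Quo (ciF F fun _ => 3).actT (ciF F fun _ => 3).cone) := hc
  refine Eq.trans ?_ (h.co_ell hK hk)
  rw [TrC.co, Fam.cor_eq0, Fam.cor_eq0]
  refine Fam.inv_congr h.tg.toInv (fun _ _ e a => ⟨e.conn a.1, h.tg.ivt_cls _ _ _ e a.2⟩)
    (fun _ _ _ _ => trivial) (fun m a b c => iff_true_intro ?_) _
  have b1 : ∀ z, pm m z () ∈ cn fun y => eval y (F default) := fun z => (e _).1 (a.2.2 z)
  obtain ⟨-, b2⟩ := p.cls cu b1 a.2.1 b c
  have b3 := b2.par_cn cu b1 (Φ.symm.surjective.connectedSpace Φ.symm.continuous)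
  have := b2.conn
  refine ⟨⟨inferInstance, fun U d _ => isClopen_iff.1 d⟩, (AM.cls_eq a.2.2).trans (Eq.trans ?_
    ((FP.eq_fundQ h.tg.dim.holOrb (hf _
      (b3.isFund_iff.2 rfl))).trans h.tg.dim.fnd_eq.symm))⟩
  haveI := b3.nice_quo
  haveI := m.R.nice
  rw [P291Z.push_push (IsPr.of_compact b3.continuous_nrm) (IsPr.of_homeomorph Φ)]
  refine congrArg (push · _) (_root_.funext fun z => Eq.trans ?_ (hΦ ⟨pm m z, b1 z⟩).symm)
  exact congrArg (Quo.mk _) (Subtype.ext (Prod.ext (Subsingleton.elim _ _) rfl))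

theorem Tgt.gwo_iff {J K : Type} [Fintype J] [Fintype K] {T : Tgt Unit J K} {χ : K → Unit → ℤ}
    (h : (T.fam χ).Tg) {k : ℕ} (hk : (T.fam χ).Big k) (g d : ℤ) (β w) :
    Tf.GWo T g β 0 0 Fin.elim0 (fun _ => d) w ↔ w = (T.fam χ).cor k ((T.fam χ).exK (T.fam χ).cone
      (T.xiB χ β)) 0 (T.fam χ).cone (T.fam χ).cone (fun _ => d) (g - 1) [] [] [] := by
  rw [show (Fin.elim0 : Fin 0 → Coch T.X) = fun i => (Fin.elim0 i : Zs T.X).1 from
    Subsingleton.elim _ _]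
  refine Tf.gwo_val ?_ (fun _ => rfl) w
  filter_upwards [Tgt.valC h hk St.well St.pres g (fun _ => d) β 0
    fun i : Fin 0 => H.mk (Fin.elim0 i), eventually_ge_atTop k] with k' b b'
  rw [List.ofFn_zero] at b
  exact b.and (Tgt.cpc_chart h (hk.mono b') g _ β (by simp [Ch.Mk]) 0)

/-- **The genus one invariant of the fundamental class of a smooth plane cubic is one.** -/
theorem Tf.ell_of (hK : St.Kit) (N r : ℕ) (d : Fin r → ℕ)
    (F : Fin r → MvPolynomial (Fin (N + 1)) ℂ) (hF : ∀ k, (F k).IsHomogeneous (d k))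
    (hs : ∀ x ∈ Pub.cone F, LinearIndependent ℂ fun k j => eval x (pderiv j (F k)))
    (hc : ConnectedSpace (Pub.Var F)) (hd : ∀ k, d k = 3) (hN : N = 2) (hr : r = 1) (β)
    (hβ : Pub.IsFund Pub.scal (Pub.cone F) β) :
    Pub.IsGW (Y := Pub.Var F) F (Pub.cone F) (Quot.mk _) 1 β 0 Fin.elim0 3 1 := by
  obtain rfl : d = fun _ => 3 := funext hd
  subst hN hr
  revert hs hc β
  refine Tf.transport (F := F) (P := fun act S => (∀ x ∈ S, LinearIndependent ℂ fun k j =>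
    eval x (pderiv j (F k))) → ConnectedSpace (Pub.Quo act S) → ∀ β, Pub.IsFund act S β →
      Pub.IsGW (Y := Pub.Quo act S) F S (Quot.mk _) 1 β 0 Fin.elim0 3 1)
    fun hs (hc : ConnectedSpace (ci F).X) β hβ => ?_
  obtain ⟨⟨x, hx⟩, -⟩ := Quot.exists_rep (Classical.arbitrary (ci F).X)
  have sm := Tf.smCI hF hs hx
  obtain ⟨β, hb, rfl⟩ := Tf.isFund_iff.1 hβ
  have e1 : (ci F).xiB (fun _ _ => (3 : ℕ)) β = Tq.fnd _ _ :=
    (congrArg _ ((Tf.fund_ci sm).unique hb (Classical.epsilon_spec (Tf.fund_ci sm).exists))).trans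
      (Tgt.push_fnd sm.tg)
  have key := sm.cor_ell hK le_rfl (((ci F).xi fun _ _ => (3 : ℕ)).symm.surjective.connectedSpace
    ((ci F).xi _).symm.continuous)
  rw [show (Fin.elim0 : Fin 0 → ℕ × Pub.Co (Pub.Quo (ci F).act (ci F).cone)) =
    fun i => ((0 : Fin 0 → ℕ) i, ((Fin.elim0 i : Coch (ci F).X)).1) from Subsingleton.elim _ _]
  exact (Tf.isGW_iff F (u := 0) (c := Fin.elim0)).2 ((Tgt.gwo_iff (T := ci F)
    (χ := fun _ _ => (3 : ℕ)) sm.tg (ciF_big le_rfl) 1 3 β 1).2 (key.symm.trans (by rw [e1]; rfl)))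

end Vale.Agent.P269
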