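import Vale.Agent.P269.San3.Ell
import Vale.Agent.P269.San2.Fin

/-! The genus one invariant of a smooth plane cubic, without hypotheses. -/

namespace Vale.Agent.P269

open MvPolynomial in
theorem Tf.ell (N r : ℕ) (d : Fin r → ℕ)
    (F : Fin r → MvPolynomial (Fin (N + 1)) ℂ) (hF : ∀ k, (F k).IsHomogeneous (d k))
    (hs : ∀ x ∈ Pub.cone F, LinearIndependent ℂ fun k j => eval x (pderiv j (F k)))
    (hc : ConnectedSpace (Pub.Var F)) (hd : ∀ k, d k = 3) (hN : N = 2) (hr : r = 1) (β)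
    (hβ : Pub.IsFund Pub.scal (Pub.cone F) β) :
    Pub.IsGW (Y := Pub.Var F) F (Pub.cone F) (Quot.mk _) 1 β 0 Fin.elim0 3 1 :=
  Tf.ell_of St.kit N r d F hF hs hc hd hN hr β hβ

end Vale.Agent.P269
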