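import Vale.Agent.P269.Cpt.PenA
import Vale.Agent.P269.Cv.Emb2
import Vale.Agent.P269.Pt.Uniq

/-!
# Stable maps of genus one and degree three to a smooth plane cubic
-/

set_option linter.unusedSectionVars false

namespace Vale.Agent.P269.San3

open Set Function Topology Filter Module Cv Matrix

/-- `C` is the cone over a smooth plane cubic with gradient `g`. -/
structure Cb (C : Set (Fin 3 → ℂ)) (g : (Fin 3 → ℂ) → Fin 3 → ℂ) : Prop where
  an : ∀ v, AnalyticAt ℂ g v
  hom : ∀ (t : ℂ) v, g (t • v) = t ^ 2 • g v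
  ne : ∀ v ∈ C, g v ≠ 0
  smul : ∀ t : ℂ, t ≠ 0 → ∀ v ∈ C, t • v ∈ C
  tan : ∀ γ : ℂ → Fin 3 → ℂ, AnalyticAt ℂ γ 0 → (∀ᶠ t in 𝓝 0, γ t ∈ C) → g (γ 0) ⬝ᵥ deriv γ 0 = 0

/-- the dimensions -/
abbrev M3 : Unit → ℕ := fun _ => 3

/-- the linear form given by a vector -/
noncomputable def dl (w : Fin 3 → ℂ) : (Fin 3 → ℂ) →L[ℂ] ℂ := ∑ j, w j • ContinuousLinearMap.proj j

theorem dl_apply (w v : Fin 3 → ℂ) : dl w v = w ⬝ᵥ v := by simp [dl, dotProduct]

theorem par_of {a b : Fin 3 → ℂ} (h : a ≠ 0) (e : crossProduct a b = 0) : ∃ s : ℂ, s • a = b := by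
  by_contra! c
  exact crossProduct_ne_zero_iff_linearIndependent.2 ((LinearIndependent.pair_iff' h).2 c) e

theorem par_cross {a b n : Fin 3 → ℂ} (h1 : n ⬝ᵥ a = 0) (h2 : n ⬝ᵥ b = 0) :
    crossProduct n (crossProduct a b) = 0 := by
  rw [cross_cross_eq_smul_sub_smul', h2, dotProduct_comm, h1]
  simp

variable {X : Type} [TopologicalSpace X] [T2Space X] [CompactSpace X] {R : RS X} {L : LB R}
  {u v c : X → ℂ} {x y : X} {N : Finset (X × X)} {A : Unit → LB R} {π : X → V M3}
  {C : Set (Fin 3 → ℂ)} {g : (Fin 3 → ℂ) → Fin 3 → ℂ}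

theorem deriv_loc (hu : L.Sec u y) (hv : L.Sec v y) (h0 : v y ≠ 0) : deriv (L.loc u y) 0 =
    R.d (fun z => u z / v z) y * v y + u y / v y * deriv (L.loc v y) 0 := by
  have a := hu.hol_div hv h0
  have b : L.loc u y =ᶠ[𝓝 0] fun t => u (R.i y t) / v (R.i y t) * L.loc v y t :=
    (R.ev_iff.1 (hv.ev_ne h0)).mono fun t e => by
      simp only [LB.loc]
      field_simp
  rw [b.deriv_eq, deriv_fun_mul (AnalyticAt.differentiableAt a) (AnalyticAt.differentiableAt hv),
    LB.loc_zero, R.i_zero]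
  rfl

theorem wr_sec (hu : L.Sec u x) (hv : L.Sec v x) : (L ^ 2 * R.K).Sec
    (fun y => u y * deriv (L.loc v y) 0 - v y * deriv (L.loc u y) 0) x := by
  have a := (L.sec_φ x).self_of_nhds
  have b := hu.hol_div a (L.ne _ _)
  have d := hv.hol_div a (L.ne _ _)
  refine ((a.pow 2).mul ((LB.Sec.hol_mul b d.sec_d).sub (LB.Sec.hol_mul d b.sec_d))).congr ?_
  filter_upwards [L.sec_φ x, hu.eventually, hv.eventually] with y e1 e2 e3
  have := L.ne x y
  simp only [deriv_loc e2 e1 this, deriv_loc e3 e1 this, Pi.mul_apply, Pi.pow_apply, Pi.sub_apply]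
  field_simp
  ring

variable (A π) in
/-- the derivative of the map -/
noncomputable def dv (x : X) : Fin 3 → ℂ := deriv (br A π x) 0 ()

section form

variable (hs : ∀ i j, (fun x => π x i j) ∈ H0 N (A i))
include hs

theorem dv_dot (w : Fin 3 → ℂ) (x : X) :
    deriv ((A ()).loc (fun y => dl w (π y ())) x) 0 = w ⬝ᵥ dv A π x :=
  (deriv_loc_lin (fun i j => (hs i j).1 x) () _).trans (dl_apply _ _)

theorem dv_apply (x : X) (j : Fin 3) : deriv ((A ()).loc (fun y => π y () j) x) 0 = dv A π x j :=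
  deriv_loc_lin (fun i j => (hs i j).1 x) () (ContinuousLinearMap.proj j)

theorem cr_sec (k : Fin 3) (x : X) :
    (A () ^ 2 * R.K).Sec (fun y => crossProduct (π y ()) (dv A π y) k) x := by
  have a := fun i j => wr_sec ((hs () i).1 x) ((hs () j).1 x)
  simp only [dv_apply hs] at a
  fin_cases k
  exacts [a 1 2, a 2 0, a 0 1]

variable (h : Cb C g) (hm : ∀ x, π x () ∈ C)
include h hm

theorem g_sec (k : Fin 3) : (fun y => g (π y ()) k) ∈ (A () ^ 2).Γ := fun x => by
  have a := (analyticAt_pi_iff.1 ((h.an _).comp (analyticAt_pi_iff.1 (an_br hs x) ())) k)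
  refine a.congr (.of_forall fun t => ?_)
  simp [br_eq, h.hom, LB.loc, div_eq_inv_mul]

omit hs in
theorem pi_ne (x : X) : π x () ≠ 0 := fun e => h.ne _ (hm x) (by
  simpa [e] using h.hom 0 0)

theorem g_dot (x : X) : g (π x ()) ⬝ᵥ π x () = 0 ∧ g (π x ()) ⬝ᵥ dv A π x = 0 := by
  have a := h.tan (fun t => (1 + t) • π x ()) (by fun_prop)
    ((ContinuousAt.eventually_ne (g := fun t : ℂ => 1 + t) (by fun_prop) (by simp)).mono
      fun t e => h.smul _ e _ (hm x))
  have b := h.tan (fun t => br A π x t ()) (analyticAt_pi_iff.1 (an_br hs x) ())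
    (.of_forall fun t => by
      rw [br_eq]
      exact h.smul _ (inv_ne_zero ((A ()).ne _ _)) _ (hm _))
  rw [(((hasDerivAt_id' (0 : ℂ)).const_add 1).smul_const _).deriv] at a
  rw [(hasDerivAt_pi.1 (an_br hs x).differentiableAt.hasDerivAt ()).deriv, br_zero] at b
  exact ⟨by simpa using a, b⟩

/-- the pull-back of the invariant differential -/
theorem exists_form : ∃ c ∈ R.K.Γ, ∀ x, c x • g (π x ()) = crossProduct (π x ()) (dv A π x) := by
  choose c hc using fun x => par_of (h.ne _ (hm x))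
    (par_cross (g_dot hs h hm x).1 (g_dot hs h hm x).2)
  refine ⟨c, fun x => ?_, hc⟩
  obtain ⟨k, a⟩ := Function.ne_iff.1 (h.ne _ (hm x))
  have b := (cr_sec hs k x).div (g_sec hs h hm k x) a
  rw [mul_div_cancel_left] at b
  refine b.congr (((g_sec hs h hm k x).ev_ne a).mono fun y e => ?_)
  simp [← hc, e]

variable (hc : ∀ x, c x • g (π x ()) = crossProduct (π x ()) (dv A π x))
include hc

theorem deg_ctr (c1 : c ∈ R.K.Γ) (hx : x ∉ Gen c) : degOn (A ()) (connectedComponent x) = 0 := by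
  obtain ⟨j, a⟩ := Function.ne_iff.1 (pi_ne h hm x)
  refine degOn_of_ne (fun y _ => (hs () j).1 y) fun y hy e => ?_
  obtain ⟨k, b⟩ := Function.ne_iff.1 (pi_ne h hm y)
  have d := Cpt.PenP.const_of_d (((hs () j).1 y).hol_div ((hs () k).1 y) b) (by
    filter_upwards [((hs () k).1 y).ev_ne b,
      (exists_comp (R := R) x).1.isOpen.mem_nhds hy] with z f1 f2
    obtain ⟨s, f3⟩ := par_of (pi_ne h hm z) (by rw [← hc, eq_zero_of_gen c1
      ((isClopen_gen c1).compl.connectedComponent_subset hx f2), zero_smul])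
    have f4 := deriv_loc ((hs () j).1 z) ((hs () k).1 z) f1
    rw [dv_apply hs, dv_apply hs, ← f3, Pi.smul_apply, Pi.smul_apply, smul_eq_mul, smul_eq_mul,
      mul_left_comm, div_mul_cancel₀ _ f1, right_eq_add] at f4
    exact (mul_eq_zero.1 f4).resolve_right f1)
  refine ((hs () j).1 y).not_mem_gen.2 ?_ ((isClopen_gen (hs () j).1).connectedComponent_subset
    (((hs () j).1 x).mem_gen a) hy)
  filter_upwards [d, ((hs () k).1 y).ev_ne b] with z f1 f2
  simpa [e, f2] using f1

theorem par_g (c0 : c x ≠ 0) {w : Fin 3 → ℂ} (a : w ⬝ᵥ π x () = 0) (b : w ⬝ᵥ dv A π x = 0) :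
    ∃ s : ℂ, s • g (π x ()) = w := by
  obtain ⟨s, e⟩ := par_of (smul_ne_zero c0 (h.ne _ (hm x))) (b := w) (by
    rw [← cross_anticomm, hc, par_cross a b, neg_zero])
  exact ⟨_, (mul_smul _ _ _).trans e⟩

theorem gen_lin (c0 : ∀ x, c x ≠ 0) (hA : Ge (A ()) 1) {w : Fin 3 → ℂ} (hw : w ≠ 0) :
    Gen (fun y => dl w (π y ())) = univ := by
  have a := (lin_mem hs () (dl w)).1
  obtain ⟨j, b⟩ := Function.ne_iff.1 hw
  refine compl_empty_iff.1 (not_nonempty_iff_eq_empty.1 fun hn => ?_)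
  have d := hA _ (isClopen_gen a).compl hn
  have e := degOn_of_ne (U := (Gen fun y => dl w (π y ()))ᶜ) (fun y _ => g_sec hs h hm j y)
    fun y hy e => by
      obtain ⟨s, f⟩ := par_g hs h hm hc (c0 y) ((dl_apply _ _).symm.trans (eq_zero_of_gen a hy :))
        (by
          rw [← dv_dot hs, (LB.loc_congr (s' := 0) ((a y).not_mem_gen.1 hy)).deriv_eq]
          exact (congrArg (deriv · 0) (funext fun _ => zero_div _)).trans (deriv_const _ _))
      exact b (by simp [← f, e])
  rw [degOn_pow] at e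
  omega

end form

/-- The map is an embedding of a smooth connected curve by a complete linear system. -/
structure Em (A : Unit → LB R) (π : X → V M3) : Prop where
  conn : ConnectedSpace X
  full : Full ∅ A π
  par : Par () (cone π) ∅ A π

theorem omega_nil : omega R ∅ ∅ = R.K := LB.ext (funext₂ fun x y => by simp [omega, LB.cst])

theorem classify (hs : ∀ i j, (fun x => π x i j) ∈ H0 N (A i)) (h : Cb C g) (hm : ∀ x, π x () ∈ C)
    (hb : Ge (omega R N ∅ * A () ^ 3) 1) (hg : gen R N = 1) (hd : deg (A ()) = 3) :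
    N = ∅ ∧ Em A π := by
  classical
  obtain ⟨c, c1, hc⟩ := exists_form hs h hm
  have a1 : ∀ x, 0 ≤ degOn (omega R N ∅) (connectedComponent x) ∧
      (x ∉ Gen c → 1 ≤ degOn (omega R N ∅) (connectedComponent x)) := fun x => by
    have b1 := (exists_comp (R := R) x).1
    have b2 := hb _ b1 ⟨x, mem_connectedComponent⟩
    rw [degOn_mul, degOn_pow] at b2
    by_cases e : x ∈ Gen c
    · exact ⟨(card_le_degOn b1 (fun y _ => c1 y) ((isClopen_gen c1).connectedComponent_subset e)
        (T := ∅) (by simp)).trans' (by simp) |>.trans (degOn_K_le_omega _ _ _), fun k => (k e).elim⟩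
    · rw [deg_ctr hs h hm hc c1 e] at b2
      omega
  have a2 : Ge (omega R N ∅) 0 := (ge_iff_comp le_rfl).2 fun x => (a1 x).1
  have a3 : ∀ U, IsClopen U → degOn (omega R N ∅) U = 0 := fun U hU =>
    le_antisymm ((a2.le_deg hU).trans (by simp [deg_omega, hg])) (a2.nonneg U)
  have a4 : Gen c = univ := eq_univ_of_forall fun x => by_contra fun e => by
    have := (a1 x).2 e
    rw [a3 _ (exists_comp (R := R) x).1] at this
    omega
  have a5 := fun T => card_le_degOn isClopen_univ (fun y _ => c1 y) a4.ge (T := T)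
  have a6 := a5 ∅ (by simp)
  rw [degOn_univ, deg_K] at a6
  obtain rfl : N = ∅ := Finset.card_eq_zero.1 (by rw [gen] at hg; simp at a6; omega)
  have c0 : ∀ x, c x ≠ 0 := fun x e => by
    have := a5 {x} (by simpa using e)
    rw [← omega_nil, a3 _ isClopen_univ] at this
    simp at this
  have a7 : Ge (A ()) 1 := fun U hU e => by
    have := hb U hU e
    rw [degOn_mul, degOn_pow, a3 U hU] at this
    omega
  have a8 := fun w => gen_lin hs h hm hc c0 a7 (w := w)
  have a9 : Ge (A ()) 2 := fun U hU ⟨p, hp⟩ => by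
    have := R.neBot p
    obtain ⟨q, b1, b2⟩ := (Eventually.and (p := (· ∈ U)) (q := (· ≠ p)) (f := 𝓝[≠] p)
      (nhdsWithin_le_nhds (hU.isOpen.mem_nhds hp)) self_mem_nhdsWithin).exists
    obtain ⟨w, b3, b4, b5⟩ : ∃ w ≠ 0, w ⬝ᵥ π p () = 0 ∧ w ⬝ᵥ π q () = 0 := by
      by_cases e : crossProduct (π p ()) (π q ()) = 0
      · obtain ⟨s, e⟩ := par_of (pi_ne h hm p) e
        exact ⟨_, h.ne _ (hm p), (g_dot hs h hm p).1, by simp [← e, (g_dot hs h hm p).1]⟩
      · exact ⟨_, e, by rw [dotProduct_comm, dot_self_cross], by rw [dotProduct_comm, dot_cross_self]⟩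
    have := card_le_degOn hU (fun y _ => (lin_mem hs () (dl w)).1 y) ((subset_univ _).trans
      (a8 w b3).ge) (T := {q, p}) (by simp [dl_apply, b1, b4, b5, hp])
    rwa [Finset.card_pair b2] at this
  have n : Nonempty X := by_contra fun n => by
    rw [← degOn_univ, univ_eq_empty_iff.2 (not_nonempty_iff.1 n), degOn_empty] at hd
    omega
  have b : ∀ U : Set X, IsClopen U → U = ∅ ∨ U = univ := fun U hU => by
    by_contra e
    have d := not_or.1 e
    have := a9 U hU (nonempty_iff_ne_empty.2 d.1)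
    have := a9 _ hU.compl (nonempty_compl.2 d.2)
    have := degOn_add_compl (L := A ()) hU
    omega
  have b1 : Ge (A () / omega R ∅ ∅) 3 := fun U hU e => by
    rw [degOn_div, a3 U hU, (b U hU).resolve_left e.ne_empty, degOn_univ, hd, sub_zero]
  have b2 := finrank_H0 (h1_eq_zero nd_empty (b1.mono (by norm_num)))
  let T : (Fin 3 → ℂ) →ₗ[ℂ] H0 ∅ (A ()) :=
    ⟨⟨fun w => ⟨_, lin_mem hs () (dl w)⟩, fun _ _ => Subtype.ext (funext fun y => by
      simp [dl_apply])⟩, fun _ _ => Subtype.ext (funext fun y => by simp [dl_apply])⟩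
  have b3 : Injective T := (injective_iff_map_eq_zero _).2 fun w e => by_contra fun k => by
    obtain ⟨x⟩ := n
    exact ((lin_mem hs () (dl w)).1 x).not_mem_gen.2
      (.of_forall (congrFun (congrArg Subtype.val e))) ((a8 w k).ge (mem_univ x))
  have b4 := (LinearMap.injective_iff_surjective_of_finrank_eq_finrank (by
    rw [hd, hg] at b2; simp; omega)).1 b3
  have f : Full ∅ A π := ⟨hs, fun _ s e => let ⟨w, k⟩ := b4 ⟨s, e⟩
    ⟨dl w, congrFun (congrArg Subtype.val k).symm⟩⟩
  exact ⟨rfl, connectedSpace_iff_clopen.2 ⟨n, b⟩, f, f.par nd_empty b1 fun _ x =>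
    let ⟨j, a⟩ := Function.ne_iff.1 (pi_ne h hm x); ⟨_, hs () j, a⟩⟩

end Vale.Agent.P269.San3
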