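import Vale.Agent.P269.San2.Iso
import Vale.Agent.P269.Holo.Osg

/-!
# Transversality at a general member of a family with one parameter
-/

set_option linter.unusedSectionVars false
set_option linter.style.haveILetI false

namespace Vale.Agent.P269.San3

open Set Function Topology Filter Module Vale.Agent.P291Z Vale.Agent.P269.Orb Holo Ch Ch.KD San2

variable {A W P : Type} [NormedRing A] [NormedAlgebra ℂ A] [NormedAddCommGroup W]
  [NormedSpace ℂ W] [FiniteDimensional ℂ A] [FiniteDimensional ℂ W]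
  {act : A → W → W} {Z O O' : Set W}

theorem exists_sup (K : Submodule ℂ W) {n : ℕ} (h : finrank ℂ K ≤ n) (h' : n ≤ finrank ℂ W) :
    ∃ S : Submodule ℂ W, K ≤ S ∧ finrank ℂ S = n := by
  induction n, h using Nat.le_induction with
  | base => exact ⟨K, le_rfl, rfl⟩
  | succ n _ ih =>
    obtain ⟨S, a, rfl⟩ := ih (by omega)
    obtain ⟨w, b⟩ := S.exists_of_finrank_lt h'
    have c := Submodule.finrank_sup_add_finrank_inf_eq S (ℂ ∙ w)
    rw [finrank_span_singleton (fun e => b 1 one_ne_zero (by simp [e])),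
      show S ⊓ (ℂ ∙ w) = ⊥ from (Submodule.eq_bot_iff _).2 fun v hv => by
        obtain ⟨z, rfl⟩ := Submodule.mem_span_singleton.1 hv.2
        exact by_contra fun e => b z (left_ne_zero_of_smul e) hv.1, finrank_bot] at c
    exact ⟨_, a.trans le_sup_left, c⟩

variable [AddCommGroup P] [Module ℂ P] [TopologicalSpace P] [IsTopologicalAddGroup P]
  [ContinuousSMul ℂ P] [T2Space P] {D : KD A W P} {n r : ℕ} {x : W} {m m' : W → P →ₗ[ℂ] ℂ}
  {ψ ψ' : W → ℂ}

theorem tst_add (a : D.Tst O x m ψ) (b : D.Tst O x m' ψ') :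
    D.Tst O x (fun y => m y + m' y) fun y => ψ y + ψ' y :=
  ⟨a.an.add b.an, fun w hw => ((a.cont w hw).and (b.cont w hw)).mono fun _ c => c.1.add c.2,
    (a.van.and b.van).mono fun _ c w hw => (congrArg₂ (· + ·) (c.1 w hw) (c.2 w hw)).trans
      (add_zero _), (a.sec.and b.sec).mono fun _ c => congrArg₂ (· + ·) c.1 c.2⟩

theorem tst_smul (z : ℂ) (a : D.Tst O x m ψ) : D.Tst O x (fun y => z • m y) fun y => z * ψ y :=
  ⟨analyticAt_const.mul a.an, fun w hw => (a.cont w hw).mono fun _ c => c.const_smul z,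
    a.van.mono fun _ c w hw => (congrArg (z • ·) (c w hw)).trans (smul_zero _),
    a.sec.mono fun _ c => congrArg (z * ·) c⟩

theorem tst_ev (hf : FiniteDimensional ℂ D.P₀) (a : D.Tst O x m ψ) :
    ∀ᶠ y in 𝓝[O] x, D.Tst O y m ψ := by
  obtain ⟨s, hs⟩ := (Submodule.fg_iff_finiteDimensional _).2 hf
  have b : ∀ᶠ y in 𝓝[O] x, ∀ w ∈ D.P₀, ContinuousWithinAt (fun z => m z w) O y :=
    ((eventually_all_finset s).2 fun w hw => a.cont w (hs.le (Submodule.subset_span hw))).mono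
      fun y c w hw => by
        rw [← hs] at hw
        induction hw using Submodule.span_induction with
        | mem w hw => exact c w hw
        | zero => simpa using continuousWithinAt_const
        | add u v _ _ d e => simp only [map_add]; exact d.add e
        | smul z u _ d => simp only [map_smul]; exact d.const_smul z
  filter_upwards [a.an.eventually_analyticAt.filter_mono nhdsWithin_le_nhds,
    eventually_eventually_nhdsWithin.2 b, eventually_eventually_nhdsWithin.2 a.van,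
    eventually_eventually_nhdsWithin.2 a.sec] with y c d e f
  exact ⟨c, fun w hw => d.mono fun _ k => k w hw, e, f⟩

/-- tests restrict to sets that are locally smaller -/
theorem tst_germ (a : D.Tst O x m ψ) (e : O ∈ 𝓝[O'] x) : D.Tst O' x m ψ :=
  have h1 : 𝓝[O'] x ≤ 𝓝[O] x := nhdsWithin_le_iff.2 e
  ⟨a.an, fun w hw => (((a.cont w hw).filter_mono h1).and (eventually_eventually_nhdsWithin.2 e)).mono
    fun _ b => b.1.mono_of_mem_nhdsWithin b.2, a.van.filter_mono h1, a.sec.filter_mono h1⟩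

theorem krn_le {hx : x ∈ O} {hx' : x ∈ O'} (e : O ∈ 𝓝[O'] x) :
    krn D O' ⟨x, hx'⟩ ≤ krn D O ⟨x, hx⟩ := fun v hv => by
  obtain ⟨a, b⟩ := mem_krn.1 hv
  refine mem_krn.2 ⟨fun Φ c d => a Φ c ?_, fun m ψ H => b m ψ (tst_germ H e)⟩
  exact (ev_sub hx').2 ((((ev_sub (p := fun s => Φ s = 0) hx).1 d).and
    (eventually_nhdsWithin_iff.1 e)).mono fun _ k k' => k.1 (k.2 k'))

variable (h : D.Gd act Z O n r)
include h

theorem exists_tst {k : KP h.dom.sp} {i : k.P.W →ₗ[ℂ] P} (hk : h.dom.IsKP k i) {t : h.dom.sp.T}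
    (ht : t ∈ k.Zs) (sep : D.Sep O (h.dom.pres.i t)) :
    ∃ (m : _ → k.P.W →L[ℂ] (Fin k.r → ℂ)) (ψ : Fin k.r → W → ℂ),
      k.Ts h.dom.pres.i t m (fun y a => ψ a y) ∧ (∀ w ∈ k.obs t, m t w = 0 → w ∈ k.van t) ∧
      (∀ b, ∃ w ∈ k.obs t, m t w = b) ∧ ∀ a, ∃ m', D.Tst O (h.dom.pres.i t) m' (ψ a) := by
  let S : Submodule ℂ (k.obs t) := (k.van t).comap (k.obs t).subtype
  have h1 : finrank ℂ (k.obs t ⧸ S) = finrank ℂ (Fin k.r → ℂ) := by
    have := S.finrank_quotient_add_finrank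
    rw [(Submodule.comapSubtypeEquivOfLe (k.le_obs t ht)).finrank_eq, k.van_rank,
      k.obs_rank t ht] at this
    rw [finrank_fin_fun]
    omega
  let Λ := (LinearEquiv.ofFinrankEq _ _ h1).toLinearMap ∘ₗ S.mkQ
  have h2 : ∀ w, Λ w = 0 ↔ w ∈ S := fun w =>
    (LinearEquiv.map_eq_zero_iff _).trans (Submodule.Quotient.mk_eq_zero S)
  let F : Submodule ℂ (Dual ℂ (k.obs t)) :=
    { carrier := {φ | ∃ m ψ, D.Tst O (h.dom.pres.i t) m ψ ∧ ∀ w, φ w = m (h.dom.pres.i t) (i w)}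
      add_mem' := fun ⟨_, _, a, b⟩ ⟨_, _, c, d⟩ =>
        ⟨_, _, tst_add a c, fun w => congrArg₂ (· + ·) (b w) (d w)⟩
      zero_mem' := ⟨fun _ => 0, fun _ => 0, ⟨analyticAt_const, fun _ _ => .of_forall fun _ =>
        continuousWithinAt_const, .of_forall fun _ _ _ => rfl, .of_forall fun _ => rfl⟩, fun _ => rfl⟩
      smul_mem' := fun c _ ⟨_, _, a, b⟩ => ⟨_, _, tst_smul c a, fun w => congrArg (c • ·) (b w)⟩ }
  have h3 : ∀ a, LinearMap.proj a ∘ₗ Λ ∈ F := fun a => by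
    rw [← Subspace.dualCoannihilator_dualAnnihilator_eq (W := F), Submodule.mem_dualAnnihilator]
    refine fun w hw => congrFun ((h2 w).2 ((hk.van t w).2
      (sep _ ((hk.obs t ht w).1 w.2) fun m ψ H => ?_))) a
    exact (Submodule.mem_dualCoannihilator w).1 hw (m _ ∘ₗ i ∘ₗ (k.obs t).subtype)
      ⟨m, ψ, H, fun _ => rfl⟩
  choose m ψ h4 h5 using h3
  have h6 := KP.Ts.sum Finset.univ fun a =>
    (Tst.ts h.dom hk (h4 a)).clm (ContinuousLinearMap.single ℂ (fun _ => ℂ) a)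
  have h7 : ∀ w : k.obs t, (∑ a, ContinuousLinearMap.single ℂ (fun _ => ℂ) a ∘L
      LinearMap.toContinuousLinearMap (m a (h.dom.pres.i t) ∘ₗ i)) w = Λ w := fun w => by
    rw [sum_apply, ← Finset.univ_sum_single (Λ w)]
    exact Finset.sum_congr rfl fun a _ => congrArg (Pi.single a) (h5 a w).symm
  refine ⟨_, ψ, (funext fun y => Finset.univ_sum_single fun a => ψ a y :) ▸ h6, fun w hw e =>
    (h2 ⟨w, hw⟩).1 ((h7 ⟨w, hw⟩).symm.trans e), fun b => ?_, fun a => ⟨_, h4 a⟩⟩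
  obtain ⟨w, rfl⟩ := ((LinearEquiv.ofFinrankEq _ _ h1).surjective.comp S.mkQ_surjective) b
  exact ⟨w, w.2, h7 w⟩

/-- **a general member of the family is cut out transversally** -/
theorem exists_near {a : ℕ} (hx : x ∈ Z) (hO : MfdAt O (a + 1 + r) x) (hs : D.Sep O x)
    (hk : finrank ℂ (krn D O ⟨x, h.dom.sub hx⟩) ≤ a + 1) (τ : W →L[ℂ] ℂ)
    (h₀ : MfdAt {y ∈ Z | τ y = τ x} a x) : ∃ y, ∃ hy : y ∈ Z,
      finrank ℂ (krn D O ⟨y, h.dom.sub hy⟩ ⊓ τ.ker : Submodule ℂ W) ≤ a := by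
  haveI := FiniteDimensional.complete ℂ W
  obtain ⟨k, i, hk', -, hr, -⟩ := h.exists_isKP
  rw [← hr] at hO
  haveI := h.dom.isAct
  let t : h.dom.sp.T := Holo.Sp.of act x (h.dom.sub hx)
  have ht : t ∈ k.Zs := (h.dom.mem_Zs hk').2 hx
  obtain ⟨m, ψ, a1, a2, a3, a4⟩ := exists_tst h hk' ht hs
  have hm : IsMfd h.dom.pres.i (a + 1 + k.r) t := hO.2
  obtain ⟨S, a5, a6⟩ := exists_sup _ hk (by
    have := Submodule.finrank_le (tan h.dom.pres.i t)
    rw [hm.finrank_tan] at this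
    omega)
  have a7 := a1.surj ht a2 a3 hm a6 fun v hv H => a5 (mem_krn.2
    ⟨hv, fun m ψ b => H _ _ (Tst.ts h.dom hk' (t := t) b)⟩)
  obtain ⟨φ, b1, b2⟩ := hm
  have an : AnalyticAt ℂ (fun y a => ψ a y) (h.dom.pres.i (φ 0)) := b2 ▸ a1.an
  obtain ⟨σ, c1, c2, -, c3, c4⟩ := b1.submersion (f := fun s a => ψ a (h.dom.pres.i s))
    (an.comp_of_eq b1.an rfl) ((b1.surjective_iff an).2 (b2 ▸ a7)) (n := a + 1) (by simp)
  have z : (fun a => ψ a (h.dom.pres.i (φ 0))) = 0 :=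
    b2 ▸ a1.sec.self_of_nhds.symm.trans (a1.van.self_of_nhds _ ht)
  rw [z] at c1 c2 c3 c4
  have e0 : φ (σ (0, 0)) = t := by rw [c2, b2]
  have c5 : Tendsto (fun p => φ (σ p)) (𝓝 (0, 0)) (𝓝 t) := e0 ▸ c3.lh.cont
  have c6 : ∀ᶠ p in 𝓝 (0, 0), h.dom.pres.i (φ (σ p)) ∈ Z ↔ p.2 = 0 := by
    filter_upwards [c4, c5.eventually (k.eventually_mem ht tendsto_id a1.cont a1.van a2),
      c5.eventually a1.van, c5.eventually a1.sec] with p d1 d2 d3 d4
    rw [← d1, ← h.dom.mem_Zs hk']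
    exact ⟨fun e => d4.symm.trans (d3 _ e), fun e => d2 (d4.trans e)⟩
  let g : (Fin (a + 1) → ℂ) → ℂ := fun u => τ (h.dom.pres.i (φ (σ (u, 0))))
  have c7 := tendsto_inl (0 : Fin (a + 1) → ℂ) (0 : Fin k.r → ℂ)
  by_cases e : ∀ᶠ u in 𝓝 0, fderiv ℂ g u = 0
  · obtain ⟨χ, d1, d2⟩ := c3.restrict (j := inclusion h.dom.sub) (IsEmbedding.inclusion _)
      (c6.mono fun p b => Iff.trans ⟨fun ⟨y, d⟩ => by rw [← d]; exact y.2,
        fun d => ⟨⟨_, d⟩, rfl⟩⟩ b)
    have d3 : χ 0 = ⟨x, hx⟩ := Subtype.ext (congrArg h.dom.pres.i (d2.self_of_nhds.trans e0))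
    have d4 : MfdAt Z (a + 1) x := ⟨hx, d3 ▸ d1.isMfd (by simp)⟩
    have d5 : AnalyticAt ℂ g 0 :=
      (τ.analyticAt _).comp (c3.an.comp_of_eq (analyticAt_id.prod analyticAt_const) rfl)
    obtain ⟨ρ, d6, d7⟩ := Metric.eventually_nhds_iff_ball.1 (e.and d5.eventually_analyticAt)
    have d8 : ∀ᶠ u in 𝓝 0, g u = τ x := by
      filter_upwards [Metric.ball_mem_nhds 0 d6] with u hu
      exact (Metric.isOpen_ball.is_const_of_fderiv_eq_zero (convex_ball _ _).isPreconnected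
        (fun v hv => (d7 v hv).2.differentiableAt.differentiableWithinAt) (fun v hv => (d7 v hv).1)
        hu (Metric.mem_ball_self d6)).trans (congrArg (fun s => τ (h.dom.pres.i s)) e0)
    have d9 : ∀ᶠ s : Z in 𝓝 ⟨x, hx⟩, τ s = τ x := by
      rw [← d3, ← d1.lh.map_nhds, eventually_map]
      filter_upwards [d2, d8] with u f1 f2
      exact (congrArg (fun s => τ (h.dom.pres.i s)) f1).trans f2
    have := h₀.unique (d4.congr (((ev_sub (p := fun s => τ s = τ x) hx).1 d9).mono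
      fun _ b => ⟨fun c => ⟨c, b c⟩, And.left⟩))
    omega
  have c8 : Tendsto h.dom.pres.i (𝓝 t) (𝓝[O] h.dom.pres.i t) :=
    tendsto_nhdsWithin_iff.2 ⟨h.dom.pres.emb.continuous.tendsto t, .of_forall h.dom.pres.mem⟩
  choose m' a8 using a4
  obtain ⟨u, d1, d2, d3, d4, d5⟩ := ((not_eventually.1 e).and_eventually (c7.eventually
    (c3.eventually.and (c6.and (c4.eventually_nhds.and ((c8.comp c5).eventually
      (eventually_all.2 fun a => tst_ev h.ok.fin (a8 a)))))))).exists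
  refine ⟨_, d3.2 rfl, ?_⟩
  let L := fderiv ℂ (fun p => h.dom.pres.i (φ (σ p))) (u, 0)
  have f1 : ∀ v, fderiv ℂ g u v = τ (L (v, 0)) := fun v =>
    (fderiv_inl (f := fun p => τ (h.dom.pres.i (φ (σ p)))) ((τ.analyticAt _).comp d2.an) v).trans
      (DFunLike.congr_fun (τ.hasFDerivAt.comp _ d2.an.differentiableAt.hasFDerivAt).fderiv _)
  have f2 := LinearMap.finrank_range_add_finrank_ker (fderiv ℂ g u).toLinearMap
  rw [LinearMap.range_eq_top.2 (Holo.Osg.surj d1), finrank_top, finrank_self, finrank_fin_fun] at f2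
  refine (Submodule.finrank_mono (t := (fderiv ℂ g u).ker.map (L.toLinearMap ∘ₗ LinearMap.inl ℂ _ _))
    fun v hv => ?_).trans ((Submodule.finrank_map_le _ _).trans (by omega))
  obtain ⟨f3, f4⟩ := mem_krn.1 hv.1
  obtain ⟨⟨v, b⟩, rfl⟩ := d2.tan_eq.le f3
  obtain rfl : b = 0 := funext fun a => by
    have f5 := DFunLike.congr_fun (d2.fderiv_comp_eq (d5 a).an) (v, b)
    have f6 := ((ContinuousLinearMap.proj (R := ℂ) (φ := fun _ => ℂ) a ∘L ContinuousLinearMap.snd ℂ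
      (Fin _ → ℂ) _).hasFDerivAt.congr_of_eventuallyEq (d4.mono fun _ c => congrFun c a)).fderiv
    exact (DFunLike.congr_fun f6 (v, b)).symm.trans (f5.trans (f4 _ _ (d5 a)))
  exact ⟨v, (f1 v).trans hv.2, rfl⟩

omit h in
theorem finrank_krn {d : ℕ} (hO : MfdAt O d x) {E N : Submodule ℂ W}
    (h2 : ∀ v ∈ E, ∀ᶠ ε : ℂ in 𝓝 0, x + ε • v ∈ O)
    (h3 : ∀ v ∈ E, (∀ m ψ, D.Tst O x m ψ → fderiv ℂ ψ x v = 0) → v ∈ N) :
    finrank ℂ (krn D O ⟨x, hO.1⟩) + finrank ℂ E ≤ d + finrank ℂ N := by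
  have k1 : E ≤ tan Subtype.val (⟨_, hO.1⟩ : O) := fun u hu => by
    have b : HasDerivAt (fun ε : ℂ => x + ε • u) u 0 := by
      simpa using ((hasDerivAt_id (0 : ℂ)).smul_const u).const_add x
    exact b.deriv ▸ Arc.mem_tan ⟨by fun_prop, by simp, h2 u hu⟩ hO.1
  have k2 := Submodule.finrank_sup_add_finrank_inf_eq (krn D O ⟨_, hO.1⟩) E
  have k3 := Submodule.finrank_mono (show krn D O ⟨_, hO.1⟩ ⊔ E ≤ _ from sup_le inf_le_left k1)
  have k4 := Submodule.finrank_mono (show krn D O ⟨_, hO.1⟩ ⊓ E ≤ N from fun u hu =>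
    h3 u hu.2 (mem_krn.1 hu.1).2)
  rw [hO.2.finrank_tan] at k3
  omega

variable (hx : x ∈ Z) (h1 : ∀ y ∈ Z, ∃ a, IsUnit a ∧ act a y = x)
  (h2 : ∀ a, IsUnit a → act a x = x → a = 1)
include hx h1 h2

theorem free_one : ∀ y ∈ Z, ∀ a, IsUnit a → act a y = y → a = 1 := fun y hy a ha e => by
  obtain ⟨_, ⟨g, rfl⟩, c⟩ := h1 y hy
  have k := h.isActZ.mul
  have d := h2 (g * a * ↑g⁻¹) ((g.isUnit.mul ha).mul g⁻¹.isUnit) (by
    rw [← c, ← k _ _ ((g.isUnit.mul ha).mul g⁻¹.isUnit) g.isUnit y hy, Units.inv_mul_cancel_right,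
      k _ _ g.isUnit ha y hy, e])
  rwa [Units.mul_inv_eq_one, g.isUnit.mul_eq_left] at d

omit h2 in
theorem card_one : Nat.card (Quo act Z) = 1 := by
  haveI := h.isActZ
  refine Nat.card_eq_one_iff_exists.2 ⟨Holo.Sp.mk (Holo.Sp.of act x hx),
    Holo.Sp.surjective_mk.forall.2 fun y => ?_⟩
  obtain ⟨_, ⟨g, rfl⟩, c⟩ := h1 _ y.val_mem
  exact (Holo.Sp.mk_eq_iff (x := y) (y := .of act x hx)).2 ⟨g, Holo.Sp.ext c⟩

theorem mf_one : Mf A Z 0 :=
  haveI := h.isActZ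
  haveI := Nat.finite_of_card_ne_zero ((card_one h hx h1).trans_ne one_ne_zero)
  mf_zero h.orbZ (free_one h hx h1 h2)

/-- **a single free orbit that is cut out transversally** -/
theorem ev_one (hO : Mf A O r) (hs : ∀ x ∈ Z, D.Sep O x)
    (ht : finrank ℂ (krn D O ⟨x, h.dom.sub hx⟩) ≤ finrank ℂ A) :
    ev (D.vr act Z O (h.fu r)) 1 = 1 := by
  haveI := h.isActZ
  haveI := Nat.finite_of_card_ne_zero ((card_one h hx h1).trans_ne one_ne_zero)
  have hZ := mf_one h hx h1 h2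
  have e := ev_fnd h.orbZ (free_one h hx h1 h2)
  rw [card_one h hx h1, Nat.cast_one] at e
  rw [← e, ← h.vr_tz (d := 0) (by rwa [zero_add]) hZ (fun y hy v ⟨hy', hv⟩ H => ?_) hs, zero_add]
  obtain ⟨a, ha, rfl⟩ := h1 y hy
  have k5 := finrank_krn_le h ha ⟨y, hy'⟩
  have k6 : tan Subtype.val (⟨y, hy⟩ : Z) ≤ krn D O ⟨y, hy'⟩ := fun u hu => mem_krn.2
    ⟨tan_le_of_comp (ι := Subtype.val) (u := inclusion h.dom.sub) (t' := ⟨y, hy⟩)
      (continuous_inclusion _).continuousAt hu, fun m ψ b =>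
        (hZ _ hy).2.fderiv_eq_zero b.an ?_ hu⟩
  · exact ⟨hy, (Submodule.eq_of_le_of_finrank_le k6 (by
      rw [(hZ _ hy).2.finrank_tan]; exact k5.trans ht)).ge (mem_krn.2 ⟨hv, H⟩)⟩
  · have c : Tendsto (Subtype.val : Z → W) (𝓝 ⟨y, hy⟩) (𝓝[O] y) := tendsto_nhdsWithin_iff.2
      ⟨continuous_subtype_val.tendsto _, .of_forall fun s => h.dom.sub s.2⟩
    filter_upwards [c.eventually b.van, c.eventually b.sec] with s d e
    exact e.symm.trans (d _ ((h.dom.zero _ (h.dom.sub s.2)).2 s.2))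

end Vale.Agent.P269.San3
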