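import Vale.Agent.P269.San3.Frm
import Vale.Agent.P269.San2.Fer
import Vale.Agent.P269.Cv.Norm
import Vale.Agent.P269.Br.Crv

/-!
# The normalisation of a smooth plane cubic
-/

set_option linter.unusedSectionVars false

namespace Vale.Agent.P269.San3

open Set Function Topology Filter Module Cv Matrix Holo

/-- `G` is a cubic form with gradient `g` that defines a smooth curve. -/
structure Cu (G : (Fin 3 → ℂ) → ℂ) (g : (Fin 3 → ℂ) → Fin 3 → ℂ) : Prop where
  anG : ∀ v, AnalyticAt ℂ G v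
  an : ∀ v, AnalyticAt ℂ g v
  homG : ∀ (t : ℂ) v, G (t • v) = t ^ 3 * G v
  hom : ∀ (t : ℂ) v, g (t • v) = t ^ 2 • g v
  der : ∀ v, fderiv ℂ G v = dl (g v)
  ne : ∀ v, v ≠ 0 → G v = 0 → g v ≠ 0

/-- the cone -/
def cn (G : (Fin 3 → ℂ) → ℂ) : Set (Fin 3 → ℂ) := {v | v ≠ 0 ∧ G v = 0}

open MvPolynomial in
theorem eval_hom {J : Type} {P : MvPolynomial J ℂ} {n : ℕ} (h : P.IsHomogeneous n) (c : ℂ)
    (x : J → ℂ) : eval (c • x) P = c ^ n * eval x P := by
  simp only [eval_eq, Finset.mul_sum]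
  refine Finset.sum_congr rfl fun a ha => ?_
  rw [← h (mem_support_iff.1 ha), Finsupp.weight_apply, Finsupp.sum,
    ← Finset.prod_pow_eq_pow_sum, mul_left_comm, ← Finset.prod_mul_distrib]
  simp [mul_pow]

open MvPolynomial in
theorem cu_eval {P : MvPolynomial (Fin 3) ℂ} (h : P.IsHomogeneous 3)
    (hs : ∀ v, v ≠ 0 → eval v P = 0 → (fun j => eval v (pderiv j P)) ≠ 0) :
    Cu (fun v => eval v P) fun v j => eval v (pderiv j P) :=
  have a := fun (Q : MvPolynomial (Fin 3) ℂ) v => AnalyticOnNhd.eval_mvPolynomial Q v trivial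
  ⟨a P, fun v => analyticAt_pi_iff.2 fun _ => a _ v, eval_hom h,
    fun t v => funext fun _ => eval_hom h.pderiv t v, fun v => ContinuousLinearMap.ext fun η =>
      (((a P v).differentiableAt.hasFDerivAt.hasLineDerivAt η).unique
        (Vir.hasDerivAt_eval P v η)).trans (dl_apply _ _).symm, hs⟩

variable {G : (Fin 3 → ℂ) → ℂ} {g : (Fin 3 → ℂ) → Fin 3 → ℂ}

theorem Cu.cb (h : Cu G g) : Cb (cn G) g :=
  ⟨h.an, h.hom, fun v a => h.ne v a.1 a.2, fun t a v b => ⟨smul_ne_zero a b.1, by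
    rw [h.homG, b.2, mul_zero]⟩, fun γ a b => by
      have c := ((h.anG (γ 0)).differentiableAt.hasFDerivAt.comp_hasDerivAt 0
        a.differentiableAt.hasDerivAt).deriv
      rw [(show G ∘ γ =ᶠ[𝓝 0] fun _ => 0 from b.mono fun _ e => e.2).deriv_eq, deriv_const, h.der,
        dl_apply] at c
      exact c.symm⟩

theorem Cu.isNodal (h : Cu G g) : IsNodal () {c : V M3 | c () ∈ cn G} := by
  refine ⟨fun c a _ => a.1, fun c a b => ⟨b (), closure_minimal (t := {c : V M3 | G (c ()) = 0})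
    (fun _ e => e.2) (isClosed_eq ((continuous_iff_continuousAt.2 fun v =>
      (h.anG v).continuousAt).comp (continuous_apply ())) continuous_const) a⟩,
    fun t a c b => h.cb.smul _ (a ()) _ b, fun c hc => ?_⟩
  obtain ⟨ζ, a1⟩ := SeparatingDual.exists_eq_one (R := ℂ) hc.1
  obtain ⟨j, a2⟩ := Function.ne_iff.1 (h.ne _ hc.1 hc.2)
  have a3 : dl (g (c ())) (c ()) = 0 := by
    have := h.cb.tan (fun t => (1 + t) • c ()) (by fun_prop)
      ((ContinuousAt.eventually_ne (g := fun t : ℂ => 1 + t) (by fun_prop) (by simp)).mono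
        fun t e => h.cb.smul _ e _ hc)
    rw [(((hasDerivAt_id' (0 : ℂ)).const_add 1).smul_const _).deriv] at this
    simpa [dl_apply] using this
  let S : Set (Fin 3 → ℂ) := {v | (G v, ζ v - 1) = 0}
  have hS : ∀ v, v ∈ S ↔ G v = 0 ∧ ζ v = 1 := fun v => by simp [S, sub_eq_zero]
  have a4 : c () ∈ S := (hS _).2 ⟨hc.2, a1⟩
  obtain ⟨⟨ψ, b1, b2⟩, -⟩ := IsMfd.zeroSet (j := (Subtype.val : S → _)) (z := ⟨_, a4⟩) (n := 1)
    IsEmbedding.subtypeVal (Φ := fun v => (G v, ζ v - 1))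
    ((h.anG _).prod ((ζ.analyticAt _).sub analyticAt_const)) (fun b => by
      rw [((h.anG _).differentiableAt.hasFDerivAt.prodMk (ζ.hasFDerivAt.sub_const 1)).fderiv, h.der]
      refine ⟨(b.1 / g (c ()) j) • Pi.single j 1 +
        (b.2 - b.1 / g (c ()) j * ζ (Pi.single j 1)) • c (), Prod.ext ?_ (by simp [a1])⟩
      simp only [ContinuousLinearMap.prod_apply, map_add, map_smul, a3]
      simpa [dl_apply] using div_mul_cancel₀ _ a2)
    (.of_forall fun _ => by simp [S]) (by simp)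
  have b3 : HasDerivAt (fun z : ℂ => (ψ fun _ => z).1)
      (fderiv ℂ (fun z => (ψ z).1) 0 fun _ => 1) 0 :=
    b1.an.differentiableAt.hasFDerivAt.comp_hasDerivAt_of_eq 0
      (hasDerivAt_pi.2 fun _ => hasDerivAt_id' 0) rfl
  have b4 : (ψ fun _ => 0).1 = c () := congrArg Subtype.val b2
  have b5 : ζ (fderiv ℂ (fun z => (ψ z).1) 0 fun _ => 1) = 0 :=
    (ζ.hasFDerivAt.comp_hasDerivAt 0 b3).unique ((hasDerivAt_const 0 1).congr_of_eventuallyEq
      (.of_forall fun z => ((hS _).1 (ψ _).2).2))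
  refine ⟨fun z _ => (ψ fun _ => z).1, _, .inl ⟨⟨analyticAt_pi_iff.2 fun _ =>
    b1.an.comp_of_eq (analyticAt_pi_iff.2 fun _ => analyticAt_id) rfl, .of_forall fun z =>
      ⟨fun e => by simpa [show (ψ fun _ => z).1 = 0 from e] using ((hS _).1 (ψ fun _ => z).2).2,
        ((hS _).1 (ψ _).2).1⟩, ?_⟩, funext fun _ => b4, rfl⟩, fun ε hε => ?_⟩
  · rw [(hasDerivAt_pi.2 fun _ => b3).deriv]
    refine LinearIndependent.pair_iff.2 fun s t e => ?_
    have k : s = 0 := by simpa [b4, a1, b5] using congrArg ζ e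
    refine ⟨k, by_contra fun k' => ?_⟩
    rw [k, zero_smul, zero_add, smul_eq_zero, or_iff_right k', map_eq_zero_iff _ b1.injective] at e
    simpa using congrFun e 0
  have d1 : ∀ᶠ s : S in 𝓝 ⟨_, a4⟩, ∃ z : ℂ, ‖z‖ < ε ∧ s.1 = (ψ fun _ => z).1 := by
    rw [← b2, ← b1.lh.map_nhds, eventually_map]
    filter_upwards [Metric.ball_mem_nhds 0 hε] with w hw
    exact ⟨w 0, (norm_le_pi_norm w 0).trans_lt (mem_ball_zero_iff.1 hw),
      congrArg (fun w => (ψ w).1) (funext fun i => congrArg w (Subsingleton.elim _ _))⟩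
  have d0 : ContinuousAt (fun y : V M3 => y ()) c := (continuous_apply ()).continuousAt
  have d2 : ContinuousAt (fun y : V M3 => ζ (y ())) c := ζ.continuous.continuousAt.comp d0
  have d3 : Tendsto (fun y : V M3 => (ζ (y ()))⁻¹ • y ()) (𝓝 c) (𝓝 (c ())) := by
    simpa only [a1, inv_one, one_smul] using Tendsto.smul (Tendsto.inv₀ d2 (by simp [a1])) d0
  filter_upwards [nhdsWithin_le_nhds (d3.eventually ((ev_sub (p := fun s => ∃ z : ℂ, ‖z‖ < ε ∧
    s = (ψ fun _ => z).1) a4).1 d1)), nhdsWithin_le_nhds (d2.eventually_ne (y := 0) (by simp [a1])),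
    self_mem_nhdsWithin] with y e1 e2 e3
  obtain ⟨z, e4, e5⟩ := e1 ((hS _).2 ⟨by rw [h.homG, e3.2, mul_zero], by simp [e2]⟩)
  exact ⟨fun _ => ζ (y ()), z, e4, .inl (funext fun _ => by
    rw [Dict.smul_ap, ← e5, smul_inv_smul₀ e2])⟩

variable {X X' : Type} [TopologicalSpace X] [T2Space X] [CompactSpace X] [TopologicalSpace X']
  [T2Space X'] [CompactSpace X'] {R : RS X} {R' : RS X'} {N : Finset (X × X)} {A : Unit → LB R}
  {A' : Unit → LB R'} {π : X → V M3} {π' : X' → V M3}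

theorem Cu.nil (h : Cu G g) (p : Par () {c : V M3 | c () ∈ cn G} N A π) : N = ∅ :=
  have a1 := g_dot p.sec h.cb p.mem
  Finset.eq_empty_of_forall_notMem fun n hn => by
    have b := (p.cross n hn).span_eq_top_of_card_eq_finrank (by simp)
    have d : ∀ v, dl (g (π n.1 ())) v = 0 := fun v => (Submodule.span_le (p := (dl _).ker)).2
      (range_subset_iff.2 fun i => by
        fin_cases i
        exacts [(dl_apply _ _).trans (a1 _).1, (dl_apply _ _).trans (a1 _).2,
          (dl_apply _ _).trans (node_eq p.sec hn ▸ (a1 n.2).2)]) (b.ge trivial)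
    exact h.cb.ne _ (p.mem _) (funext fun j => by simpa [dl_apply] using d (Pi.single j 1))

theorem Cu.numbers (h : Cu G g) (hz : ∀ v, v 2 = 0 → G v = v 0 ^ 3 + v 1 ^ 3 ∧ g v 0 = 3 * v 0 ^ 2)
    (p : Par () {c : V M3 | c () ∈ cn G} N A π) :
    Ge (omega R N ∅ * A () ^ 3) 1 ∧ gen R N = 1 ∧ deg (A ()) = 3 := by
  classical
  obtain rfl := h.nil p
  obtain ⟨c, c1, hc⟩ := exists_form p.sec h.cb p.mem
  have c0 : ∀ x, c x ≠ 0 := fun x e => crossProduct_ne_zero_iff_linearIndependent.2 (p.imm x)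
    ((hc x).symm.trans (by rw [e, zero_smul]))
  have a2 := deg_of_ne c1 c0
  rw [deg_K] at a2
  refine ⟨fun U a b => ?_, by rw [gen]; simp; omega, ?_⟩
  · have := p.ge_one U a b
    rw [degOn_mul, degOn_pow, omega_nil, degOn_of_ne (fun y _ => c1 y) fun y _ => c0 y]
    omega
  have a3 := gen_lin p.sec h.cb p.mem hc c0 p.ge_one (w := Pi.single 2 1) (by simp)
  simp only [dl_apply, single_dotProduct, one_mul] at a3
  choose x t t0 e using fun ω => (p.img fun _ => ![1, San2.rt ω, 0]).1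
    ⟨by simp, by simp [(hz ![1, San2.rt ω, 0] rfl).1, San2.rt_pow]⟩
  have e' : ∀ ω, π (x ω) () = (t ω ())⁻¹ • ![1, San2.rt ω, 0] := fun ω => by
    rw [congrFun (e ω) (), Dict.smul_ap, inv_smul_smul₀ (t0 _ _)]
  have a4 : Injective x := fun ω ω' k => by
    have := (e' ω).symm.trans (k ▸ e' ω')
    have b0 : t ω () = t ω' () := by simpa using congrFun this 0
    have b1 : San2.rt ω = San2.rt ω' := by simpa [b0, t0] using congrFun this 1
    exact Subtype.ext (Units.ext (neg_injective b1))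
  have := Fintype.ofFinite (rootsOfUnity 3 ℂ)
  rw [deg_eq_sum (p.sec () 2).1 a3 (Z := Finset.univ.image x) fun y hy k => hy ?_,
    Finset.sum_image a4.injOn, Finset.sum_congr rfl (g := fun _ => 1) fun ω _ => ?_]
  · rw [Finset.sum_const, Finset.card_univ, ← Nat.card_eq_fintype_card, Complex.card_rootsOfUnity]
    rfl
  · rw [((p.sec () 2).1 _).ord_eq_one.2 ⟨by simp [e'], fun k => ?_⟩]
    · rfl
    obtain ⟨s, b⟩ := par_g p.sec h.cb p.mem hc (c0 (x ω)) (w := Pi.single 2 1) (by simp [e'])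
      (by simpa [dv_apply p.sec] using k)
    have b0 : s = 0 := by
      have := congrFun b 0
      rw [Pi.smul_apply, (hz (π (x ω) ()) (by simp [e'])).2] at this
      simpa [e', t0] using this
    simpa [b0] using congrFun b 2
  · have b := (hz _ k).1.symm.trans (p.mem y).2
    have b0 : π y () 0 ≠ 0 := fun b0 => (p.mem y).1 (funext fun j => by
      fin_cases j
      exacts [b0, by simpa [b0] using b, k])
    obtain ⟨ω, d⟩ := San2.exists_rt (ζ := π y () 1 / π y () 0) (by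
      field_simp; linear_combination b)
    have f : π y () = (π y () 0 * t ω ()) • π (x ω) () := funext fun j => by
      rw [e', smul_smul, mul_inv_cancel_right₀ (t0 _ _), d]
      fin_cases j <;> simp
      exacts [by field_simp, k]
    exact Finset.mem_image.2 ⟨ω, Finset.mem_univ _, by
      simpa using p.inj (x ω) y (fun _ => π y () 0 * t ω ()) (funext fun _ => f)⟩

theorem exists_map {C C' : Set (V M3)} (h : Par () C ∅ A π) (h' : Par () C' ∅ A' π') (hC : C ⊆ C') :
    ∃ (f : X → X') (c : X → Unit → ℂ) (hf : LIso R R' f), (∀ y, π' (f y) = c y • π y) ∧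
      (∀ y i, c y i ≠ 0) ∧ ∀ i, (fun y => c y i) ∈ (hf.pb (A' i) / A i).Γ := by
  choose f s φ a1 a2 a3 a4 a5 a6 using fun x => h'.factor_branch (γ := br A π x)
    ⟨(h.isBranch x).holo, (h.isBranch x).mem.mono fun _ e => hC e, (h.isBranch x).imm⟩
  have e0 : ∀ y, π' (f y) = (s y 0)⁻¹ • π y := fun y => by
    have := (a6 y).self_of_nhds
    rw [br_zero, a4, br_zero] at this
    rw [this, Dict.inv_smul (a2 y)]
  have tφ : ∀ y, Tendsto (φ y) (𝓝 0) (𝓝 0) := fun y => by
    simpa [ContinuousAt, a4] using (a3 y).continuousAt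
  have key : ∀ y, ∀ᶠ t in 𝓝 0, f (R.i y t) = R'.i (f y) (φ y t) := fun y => by
    filter_upwards [a6 y] with t d
    rw [br_eq, br_eq, ← Dict.smul_inv (a2 (R.i y t)) (π _), ← e0, ← mul_smul, ← mul_smul] at d
    simpa using h'.fibre (fun i => mul_ne_zero (inv_ne_zero ((A i).ne _ _)) (a2 _ i)) d
  have k2 : ∀ y, (fun t => R'.e (f y) (f (R.i y t))) =ᶠ[𝓝 0] φ y := fun y =>
    ((key y).and (tφ y (R'.tgt_nhds (f y)))).mono fun t a => by simp only [a.1, R'.e_i a.2]
  have hf : LIso R R' f := ⟨continuous_iff_continuousAt.2 fun y => by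
      rw [ContinuousAt, ← R.map_i y, tendsto_map'_iff]
      exact ((R'.tends_i (f y)).comp (tφ y)).congr' ((key y).mono fun _ a => a.symm),
    fun y => (a3 y).congr (k2 y).symm, fun y => (k2 y).deriv_eq.trans_ne (a5 y)⟩
  refine ⟨f, fun y => (s y 0)⁻¹, hf, e0, fun y i => inv_ne_zero (a2 y i), fun i y => ?_⟩
  refine ((analyticAt_pi_iff.1 (a1 y) i).inv (a2 y i)).congr ?_
  filter_upwards [br_of_eq (A := A) (A' := A') hf e0 y, a6 y, k2 y] with t b d e
  rw [e] at b
  rw [b, ← mul_smul] at d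
  have := congrFun (Dict.smul_cancel (h.ne_zero _ (h.br_mem y t)) ((one_smul _ _).trans d)) i
  exact (eq_inv_of_mul_eq_one_right this.symm).symm

theorem Em.exists_iso (h : Em A π) (h' : Em A' π') (hC : cone π ⊆ cone π') :
    ∃ (f : X ≃ X') (c : X → Unit → ℂ) (hf : LIso R R' f), (∀ y, π' (f y) = c y • π y) ∧
      (∀ y i, c y i ≠ 0) ∧ ∀ i, (fun y => c y i) ∈ (hf.pb (A' i) / A i).Γ := by
  obtain ⟨f, c, hf, a1, a2, a3⟩ := exists_map h.par h'.par hC
  have := h.conn
  have := h'.conn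
  exact ⟨.ofBijective f ⟨fun x y e => by
    simpa using h.par.fibre (a2 x) ((a1 x).symm.trans (e ▸ a1 y)),
    range_eq_univ.1 (hf.isClopen_range.eq_univ (range_nonempty f))⟩, c, hf, a1, a2, a3⟩

theorem Cu.cone_sub (h : Cu G g) (hm : ∀ x, π x () ∈ cn G) : cone π ⊆ {c | c () ∈ cn G} := by
  rintro _ ⟨x, t, a, rfl⟩
  exact h.cb.smul _ (a ()) _ (hm x)

theorem Em.par_cn (h : Em A π) (hG : Cu G g) (hm : ∀ x, π x () ∈ cn G) (hc : ConnectedSpace
    (Quo (fun (t : Unit → ℂ) (c : V M3) => t • c) {c | c () ∈ cn G})) :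
    Par () {c : V M3 | c () ∈ cn G} ∅ A π := by
  obtain ⟨X', _, _, _, R', N, A', π', p⟩ := hG.isNodal.exists_par
  obtain rfl := hG.nil p
  obtain ⟨f, c, hf, a1, a2, -⟩ := exists_map h.par p (hG.cone_sub hm)
  have := p.nice_quo
  have := h.conn
  have b := isHomeomorph_iff_continuous_bijective.2
    ⟨p.continuous_nrm, fun x y e => by simpa using p.nrm_eq_iff.1 e, p.surjective_nrm⟩
  have := b.homeomorph.symm.surjective.connectedSpace b.homeomorph.symm.continuous
  refine (hG.cone_sub hm).antisymm (fun v hv => ?_) ▸ h.par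
  obtain ⟨y, t, d, rfl⟩ := (p.img v).1 hv
  obtain ⟨y, rfl⟩ := (hf.isClopen_range.eq_univ (range_nonempty f)).ge (mem_univ y)
  exact ⟨y, t * c y, fun i => mul_ne_zero (d i) (a2 y i), by rw [a1, mul_smul]⟩

end Vale.Agent.P269.San3
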