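import Vale.Agent.P269.San3.Am
import Vale.Agent.P269.San3.Gen

/-!
# The deformations of the Fermat cubic curve in the Hesse pencil
-/

set_option linter.unusedSectionVars false

namespace Vale.Agent.P269.San3

open Set Function Topology Filter Module Cv Ch Base P1 Th Vir

section gen

variable {S Λ R J K ι ν κ : Type} [Fintype S] [Fintype Λ] [Fintype R] [Fintype J] [Fintype K]
  [Fintype ι] [DecidableEq ι] [Fintype ν] [Fintype κ] {ch : Ch ι J} {F : Fam S Λ R J K}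
  {e : K → ι → ℕ} {x v : ch.WF ν κ Λ} {O : Set (ch.WF ν κ Λ)} (hf : ch.Fits F e)
include hf

theorem fderiv_zero (hN : Num₀ ch) (fin : FiniteDimensional ℂ (ch.polF F e))
    (hO : ∀ y ∈ O, y.2 ∈ ch.base _) (hx : x ∈ O) (hs : x ∈ ch.solF ν κ F) (hv : ∀ l, v.2.Q l = 0)
    (mo : ∀ᶠ ε : ℂ in 𝓝 0, x + ε • v ∈ O)
    (H : ∀ m ψ, (ch.kd ν κ F e).Tst O x m ψ → fderiv ℂ ψ x v = 0) :
    ∀ z ∈ gr x.2, ∀ t, fderiv ℂ (fun y => tst z t (sctF F e y)) x v = 0 := fun z hz t => by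
  obtain ⟨d, i, j1, j2⟩ := San2.exists_coord _ fin
  have hi : ∀ u, i u ∈ ch.polF F e := fun u => j2.le ⟨u, rfl⟩
  choose Φ h using fun x : ch.WF ν κ Λ => j2.ge (hf.sctF_mem x)
  have a : AnalyticAt ℂ Φ x := Edg.ScA.an_of_sep (fun a : ch.Pt × _ => tst a.1 a.2 ∘ₗ i)
    (fun v hv => j1 ((map_zero i).symm ▸
      P_ext (fun j z m => hv (z, .inl ⟨j, m⟩)) fun k z ζ => hv (z, .inr (k, ζ))))
    fun a => by simpa only [LinearMap.comp_apply, h] using Th.an_tst a.1 a.2 x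
  have b : i (fderiv ℂ Φ x v) ∈ vanM F e x := San2.van_of_tst hN (hO _ hx) hO (hi _) fun m ψ b => by
    rw [← San2.fderiv_tst (D := ch.kd ν κ F e) hi hx a h (mo.mono fun ε c => ⟨c, ?_⟩) b, H m ψ b]
    have : ∀ l, (x + ε • v).2.Q l = x.2.Q l := fun l => ContinuousLinearMap.ext fun μ =>
      (congrArg (fun T : _ →L[ℂ] _ => x.2.Q l μ + ε • T μ) (hv l)).trans (by simp)
    simpa only [vanM, gr, this] using sctF_mem_vanM hf hs
  simp only [← h]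
  exact (DFunLike.congr_fun ((LinearMap.toContinuousLinearMap (tst z t ∘ₗ i)).hasFDerivAt.comp x
    a.differentiableAt.hasFDerivAt).fderiv v).trans (tst_zero.1 ((mem_vanM.1 b).2 z hz) t)

theorem der_eqn {z : ch.Pt} (hz : ∀ i, z.1 i ≠ 0) {y η : J → ℂ}
    (hy : ∀ j μ, z.2 (some j) (x.2.X j μ) = y j * val μ z.1)
    (hη : ∀ j μ, z.2 (some j) (v.2.X j μ) = η j * val μ z.1) (k : K)
    (H : ∀ t, fderiv ℂ (fun y => tst z t (sctF F e y)) x v = 0) :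
    deriv (fun ε : ℂ => F.eqn (x.1 + ε • v.1, y + ε • η) k) 0 = 0 := by
  obtain ⟨ζ, hζ⟩ := exists_Zt hz
  have a : ∀ ε : ℂ, tst z (.inr (k, ζ)) (sctF F e (x + ε • v)) =
      F.eqn (x.1 + ε • v.1, y + ε • η) k := fun ε => by
    have := hf.eval_hp (x.1 + ε • v.1) k ζ z.1 (y + ε • η)
    simp only [hζ, one_pow, Finset.prod_const_one, mul_one] at this
    refine ((sctF_snd _ k z ζ).trans ?_).trans this
    refine congrArg (MvPolynomial.eval · _) (funext fun j => (ap_line z j _ x v ε).trans ?_)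
    rw [hy, hη, ← mul_assoc, ← add_mul]
    rfl
  have b := H (.inr (k, ζ))
  rwa [Th.fderiv_tst, funext a] at b

end gen

theorem van3 {A B C : ℂ} (h : ∀ ζ : ℂ, ζ ^ 3 = -1 → A + B * ζ + C * ζ ^ 2 = 0) :
    A = 0 ∧ B = 0 ∧ C = 0 := by
  obtain ⟨ω, q⟩ : ∃ ω : ℂ, 1 + ω + ω ^ 2 = 0 :=
    let ⟨s, hs⟩ := IsAlgClosed.exists_pow_nat_eq (-3 : ℂ) two_pos
    ⟨(s - 1) / 2, by linear_combination hs / 4⟩
  have h1 := h (-1) (by ring)
  have h2 := h (-ω) (by linear_combination (1 - ω) * q)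
  have h3 := h (-ω ^ 2) (by linear_combination (1 - ω) * (1 + ω ^ 3) * q)
  have a : A = 0 := by linear_combination (h1 + h2 + h3 + (B - C * (1 - ω + ω ^ 2)) * q) / 3
  have b : B = 0 := by
    linear_combination (-(h1 + ω ^ 2 * h2 + ω * h3) + (A + 2 * (1 - ω) * B + C * (1 - ω + ω ^ 3)) * q) / 3
  exact ⟨a, b, by linear_combination h1 - a + b⟩

theorem fer_alg (ℓ : Fin 3 → (Fin 3 → ℂ) →L[ℂ] ℂ) (τ : ℂ) (h : ∀ y : Fin 3 → ℂ, y ≠ 0 →
    ∑ j, y j ^ 3 = 0 → ∑ j, 3 * y j ^ 2 * ℓ j y + τ * ∏ j, y j = 0) :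
    τ = 0 ∧ ∃ c, ∀ j y, ℓ j y = c * y j := by
  obtain ⟨a, e⟩ : ∃ a : Fin 3 → Fin 3 → ℂ, ∀ j y, ℓ j y = ∑ i, a j i * y i :=
    ⟨_, fun j => RepP.dual_sum (ℓ j)⟩
  simp only [e, Fin.sum_univ_three, Fin.prod_univ_three] at h ⊢
  obtain ⟨a1, a2, a3⟩ := van3 (A := a 0 0 - a 1 1) (B := a 0 1) (C := a 1 0) fun ζ z => by
    have := h ![1, ζ, 0] (by simp) (by simp [z])
    simp only [Matrix.cons_val] at this
    linear_combination this / 3 - a 1 1 * z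
  obtain ⟨b1, b2, b3⟩ := van3 (A := a 0 0 - a 2 2) (B := a 0 2) (C := a 2 0) fun ζ z => by
    have := h ![1, 0, ζ] (by simp) (by simp [z])
    simp only [Matrix.cons_val] at this
    linear_combination this / 3 - a 2 2 * z
  obtain ⟨-, c2, c3⟩ := van3 (A := a 1 1 - a 2 2) (B := a 1 2) (C := a 2 1) fun ζ z => by
    have := h ![0, 1, ζ] (by simp) (by simp [z])
    simp only [Matrix.cons_val] at this
    linear_combination this / 3 - a 2 2 * z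
  obtain ⟨s, hs⟩ := IsAlgClosed.exists_pow_nat_eq (-2 : ℂ) three_pos
  have d := h ![1, 1, s] (by simp) (by simp [hs]; ring)
  rw [sub_eq_zero] at a1 b1
  simp only [Matrix.cons_val, ← a1, ← b1, a2, a3, b2, b3, c2, c3] at d
  refine ⟨by linear_combination -(s ^ 2 * d - (τ + 3 * a 0 0 * s ^ 2) * hs) / 2, a 0 0, fun j y => ?_⟩
  fin_cases j <;> simp [← a1, ← b1, a2, a3, b2, b3, c2, c3]

variable {Λ K ν κ : Type} [Fintype Λ] [Fintype K] [Fintype ν] [Fintype κ] [IsEmpty ν] [IsEmpty κ]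
  {F : Fam Empty Λ Unit (Fin 3) K} {G : (Fin 3 → ℂ) → ℂ} {g : (Fin 3 → ℂ) → Fin 3 → ℂ}
  {l w : Λ → ℂ} {k D : ℕ}
  {x : (F.sch ν κ k D 1 fun _ => 3).WF ν κ Λ} {e : K → Option Unit → ℕ}

theorem Fb.ker (h : Fb F l G g) (hG : ∀ v, G v = ∑ j, v j ^ 3) (hD : F.BigD k D)
    (hx : x ∈ solF _ ν κ F) (hl : x.1 = l) (hf : (F.sch ν κ k D 1 fun _ => 3).Fits F e) (q : K) {τ : ℂ} {X : Fl _}
    (he : ∀ y η, deriv (fun ε : ℂ => F.eqn (l + ε • τ • w, y + ε • η) q) 0 =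
      ∑ j, 3 * y j ^ 2 * η j + τ * ∏ j, y j)
    (H : ∀ z ∈ gr x.2, ∀ t, fderiv ℂ (fun y => tst z t (sctF F e y)) x (τ • w, fl _ _ X) = 0) :
    ∃ c : ℂ, c • (0, fl _ _ x.2.X) = (τ • w, fl _ (Mk ν κ) X) := by
  obtain ⟨m, r, b, c1, c2⟩ := h.data hD hx hl
  obtain ⟨B, π, u, s, r⟩ := r.exists_data hx.1.2.1
  choose μ hμ using fun y j => tvZ_ne (r.cr.par.ne y) j
  choose η a using fun j => show ∃ η, Ind (P1.setX x.2 X) π u j η from ⟨_, fun y μ' =>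
    LinearMap.congr_fun (eq_of_kos (Y := yv (fl _ _ X) (π y, u y) j) (hμ y j) fun _ =>
      (fderiv_inl _ j _ _ (τ • w, fl _ _ X)).symm.trans (H _ (r.cr.gr y) _)) μ'⟩
  choose ℓ hℓ using fun j => c2.full.span () (η j) (c1 ▸ h.bz_w (m := m) j ▸
    (r.eqv_wd (Fam.chart_lat hD).wd j).H0.1 ((r.cr.setX X).ind_mem (a j)))
  obtain ⟨rfl, c, d⟩ := fer_alg ℓ τ fun y h1 h2 => by
    obtain ⟨z, t, rfl⟩ := h.onto b c2 ⟨h1, (hG y).trans h2⟩
    have := der_eqn hf (v := (τ • w, fl _ _ X)) (r.cr.par.ne z) (fun j => r.ind j trivial z)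
      (fun j => a j z) q (H _ (r.cr.gr z))
    rw [hl, he] at this
    simp only [map_smul, ← hℓ, Pi.smul_apply, smul_eq_mul, Fin.sum_univ_three, Fin.prod_univ_three,
      pm] at this ⊢
    linear_combination t ^ 3 * this
  refine ⟨c, Prod.ext (by simp) ((map_smul _ _ _).symm.trans (congrArg _ (funext fun j =>
    ((r.cr.setX X).X_ext (a j) (x' := fl _ _ (c • x.2.X)) fun y μ => ?_).symm)))⟩
  rw [hℓ, d, mul_assoc]
  exact (map_smul (u y (some j)) c _).trans (congrArg (c * ·) (r.ind j trivial y μ))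

end Vale.Agent.P269.San3
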